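import Vale.Agent.P196.Tile.Facts.Fields

/-!
P196, module D, minimality: the coordinates of the four tiles of a window, and moving the special
column or the wire row of a window to another place.
-/

namespace Vale.Agent.P196.Tile.Minimal

open ChildRules

/-! ### The tiles of a window -/

/-- The tile `j` is a left one. -/
def dx (j : Fin 4) : Bool := decide (j = 1 ∨ j = 3)

/-- The tile `j` is a lower one. -/
def dy (j : Fin 4) : Bool := decide (j = 2 ∨ j = 3)

/-- The position of a tile along one axis, `b` telling whether it is the smaller one. -/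
def pick (L X : ℕ) (b : Bool) : ℕ := if b then pred' L X else X

/-- The parent bits seen by the tile `j`. -/
def seen (b : ℕ → Quad) (X Y : ℕ) (j : Fin 4) : ℕ → Quad :=
  guestBits (decide (X = 0) && !dx j) (decide (Y = 0) && !dy j) b

/-- The local horizontal coordinate of the tile `j`. -/
def xAt (L X : ℕ) (j : Fin 4) : ℕ := pick L X (dx j) % H L

/-- The local vertical coordinate of the tile `j`. -/
def yAt (L Y : ℕ) (j : Fin 4) : ℕ := pick L Y (dy j) % H L

lemma window_apply (L : ℕ) (τ : ℕ → Bool) (b : ℕ → Quad) (X Y : ℕ) (j : Fin 4) :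
    window L τ b X Y j = child L τ (seen b X Y j) (pick L X (dx j)) (pick L Y (dy j)) := rfl

lemma seen_self {X Y : ℕ} (hX : X ≠ 0) (hY : Y ≠ 0) (b : ℕ → Quad) (j : Fin 4) :
    seen b X Y j = b := by
  funext k i
  simp only [seen, hX, hY, decide_false, Bool.false_and]
  fin_cases i <;> rfl

lemma seen_row {b b' : ℕ → Quad} {k : ℕ} (h : b k = b' k) (X Y : ℕ) (j : Fin 4) :
    seen b X Y j k = seen b' X Y j k := by
  funext i
  simp only [seen, guestBits, h]

lemma xAt_lt (L X : ℕ) (j : Fin 4) : xAt L X j < H L := Nat.mod_lt _ (H_pos L)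

lemma yAt_lt (L Y : ℕ) (j : Fin 4) : yAt L Y j < H L := Nat.mod_lt _ (H_pos L)

/-! ### Parity -/

lemma M_even {L : ℕ} (hL : L₀ ≤ L) : 2 ∣ M L :=
  dvd_pow_self 2 (by have := le_L₀.trans hL; omega)

lemma lo_parity {L : ℕ} (hL : L₀ ≤ L) (x : ℕ) : lo L x % 2 = x % 2 :=
  Nat.mod_mod_of_dvd _ (M_even hL)

lemma pick_parity {L X : ℕ} (hL : L₀ ≤ L) (hX : X < side L) (b : Bool) :
    pick L X b % H L % 2 = (if b then (X + 1) % 2 else X % 2) := by
  have hH : 2 ∣ H L := (M_even hL).trans (M_dvd_H L)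
  rw [Nat.mod_mod_of_dvd _ hH]
  cases b
  · rfl
  · have hs : side L = 2 * H L := rfl
    have := H_pos L
    simp only [pick, if_true]
    by_cases h : X = 0
    · subst h; rw [pred'_zero]; omega
    · rw [pred'_succ L X hX h]; omega

/-- Two tiles of a window at even coordinates are on the same side. -/
lemma pick_unique {L X : ℕ} (hL : L₀ ≤ L) (hX : X < side L) {b c : Bool}
    (hb : pick L X b % H L % 2 = 0) (hc : pick L X c % H L % 2 = 0) : b = c := by
  rw [pick_parity hL hX] at hb hc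
  cases b <;> cases c <;> first | rfl | (simp only [if_true, Bool.false_eq_true, if_false] at hb hc; omega)

lemma col_even {L x m : ℕ} (hL : L₀ ≤ L) (h : IsCol L x m ∧ lo L x % 2 = 0) : x % 2 = 0 :=
  lo_parity hL x ▸ h.2

lemma bundle_even {L x : ℕ} (hL : L₀ ≤ L) (h : IsBundle L x) : x % 2 = 0 :=
  col_even hL (m := 1) h

lemma zone_even {L x m : ℕ} (hL : L₀ ≤ L) (h : IsZone L x m) : x % 2 = 0 :=
  col_even hL ⟨h.1, by have := h.2.1; omega⟩

lemma scan_even {L x m : ℕ} (hL : L₀ ≤ L) (h : IsCol L x m ∧ lo L x = 0) : x % 2 = 0 :=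
  col_even hL ⟨h.1, by rw [h.2]⟩

lemma wire_even {L y : ℕ} (hL : L₀ ≤ L) (h : IsWire L y) : y % 2 = 0 := by
  rw [← lo_parity hL y, h.1]

/-- The even column of a window is unique. -/
lemma xAt_unique {L X : ℕ} (hL : L₀ ≤ L) (hX : X < side L) {i j : Fin 4}
    (hi : xAt L X i % 2 = 0) (hj : xAt L X j % 2 = 0) : xAt L X i = xAt L X j := by
  unfold xAt
  rw [pick_unique hL hX hi hj]

lemma yAt_unique {L Y : ℕ} (hL : L₀ ≤ L) (hY : Y < side L) {i j : Fin 4}
    (hi : yAt L Y i % 2 = 0) (hj : yAt L Y j % 2 = 0) : yAt L Y i = yAt L Y j := by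
  unfold yAt
  rw [pick_unique hL hY hi hj]

lemma yAt_wire_unique {L Y : ℕ} (hL : L₀ ≤ L) (hY : Y < side L) {i j : Fin 4}
    (hi : IsWire L (yAt L Y i)) (hj : IsWire L (yAt L Y j)) : yAt L Y i = yAt L Y j :=
  yAt_unique hL hY (wire_even hL hi) (wire_even hL hj)

/-- Two special columns of a window coincide, so do their middle parts. -/
lemma special_unique {L X : ℕ} (hL : L₀ ≤ L) (hX : X < side L) {i j : Fin 4} {m m' : ℕ}
    (hi : IsCol L (xAt L X i) m ∧ lo L (xAt L X i) % 2 = 0)
    (hj : IsCol L (xAt L X j) m' ∧ lo L (xAt L X j) % 2 = 0) :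
    xAt L X i = xAt L X j ∧ m = m' := by
  have e := xAt_unique hL hX (col_even hL hi) (col_even hL hj)
  exact ⟨e, by rw [← hi.1.2, ← hj.1.2, e]⟩

/-! ### A tile away from the borders -/

lemma local_cases {L Z : ℕ} (hZ : Z < side L) :
    (Z < H L ∧ Z % H L = Z) ∨ (H L ≤ Z ∧ Z % H L = Z - H L) := by
  have hs : side L = 2 * H L := rfl
  rcases Nat.lt_or_ge Z (H L) with h | h
  · exact Or.inl ⟨h, Nat.mod_eq_of_lt h⟩
  · exact Or.inr ⟨h, by rw [Nat.mod_eq_sub_mod h, Nat.mod_eq_of_lt (by omega)]⟩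

lemma pick_lt {L X : ℕ} (hX : X < side L) (b : Bool) : pick L X b < side L := by
  cases b
  · exact hX
  · exact pred'_lt L X

lemma pick_true {L X : ℕ} (hX : X < side L) (h0 : X ≠ 0) : pick L X true = X - 1 :=
  pred'_succ L X hX h0

/-- The special tile is not at the border of the parent, so both tiles lie in the same half. -/
lemma pick_mem {L X : ℕ} (hX : X < side L) {b : Bool} {x : ℕ} (hx : pick L X b % H L = x)
    (h1 : 1 ≤ x) (h2 : x + 1 < H L) :
    X ≠ 0 ∧ ∃ s, (s = 0 ∨ s = H L) ∧ X = s + x + (if b then 1 else 0) := by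
  have hs : side L = 2 * H L := rfl
  cases b
  · simp only [pick, Bool.false_eq_true, if_false, add_zero] at hx ⊢
    rcases local_cases hX with ⟨h, e⟩ | ⟨h, e⟩
    · exact ⟨by omega, 0, Or.inl rfl, by omega⟩
    · exact ⟨by omega, H L, Or.inr rfl, by omega⟩
  · simp only [if_true]
    by_cases h0 : X = 0
    · subst h0
      simp only [pick, if_true] at hx
      rcases local_cases (pred'_lt L 0) with ⟨h, e⟩ | ⟨h, e⟩ <;> rw [pred'_zero] at h e hx <;> omega
    · rw [pick_true hX h0] at hx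
      rcases local_cases (show X - 1 < side L by omega) with ⟨h, e⟩ | ⟨h, e⟩
      · exact ⟨h0, 0, Or.inl rfl, by omega⟩
      · exact ⟨h0, H L, Or.inr rfl, by omega⟩

/-- The local coordinates of a window around a tile away from the borders. -/
lemma near {L X : ℕ} (hX : X < side L) {b : Bool} {x : ℕ} (hx : pick L X b % H L = x)
    (h1 : 1 ≤ x) (h2 : x + 1 < H L) (c : Bool) :
    pick L X c % H L + (if c then 1 else 0) = x + (if b then 1 else 0) := by
  obtain ⟨h0, s, hs, e⟩ := pick_mem hX hx h1 h2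
  have hs' : side L = 2 * H L := rfl
  have hm : ∀ a, a < H L → (s + a) % H L = a := fun a ha => by
    rcases hs with rfl | rfl
    · rw [Nat.zero_add, Nat.mod_eq_of_lt ha]
    · rw [Nat.add_mod_left, Nat.mod_eq_of_lt ha]
  cases c
  · cases b <;> simp only [pick, Bool.false_eq_true, if_false, if_true] at e ⊢ <;> rw [e]
    · simp only [Nat.add_zero, hm x (by omega)]
    · rw [add_zero, add_assoc, hm (x + 1) h2]
  · rw [pick_true hX h0]
    cases b <;> simp only [Bool.false_eq_true, if_false, if_true] at e ⊢ <;> rw [e]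
    · rw [show s + x + 0 - 1 = s + (x - 1) by omega, hm (x - 1) (by omega)]
      omega
    · rw [show s + x + 1 - 1 = s + x by omega, hm x (by omega)]

/-- The window moved so that its special tile has local coordinate `x'` instead of `x`. -/
def shift (X x x' : ℕ) : ℕ := X - x + x'

/-- All four tiles move by the same amount within their half. -/
lemma shift_spec {L X : ℕ} (hX : X < side L) {b : Bool} {x x' : ℕ}
    (hx : pick L X b % H L = x) (h1 : 1 ≤ x) (h2 : x + 1 < H L) (h1' : 1 ≤ x')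
    (h2' : x' + 1 < H L) :
    shift X x x' < side L ∧ shift X x x' ≠ 0 ∧ pick L (shift X x x') b % H L = x' ∧
      ∀ c, pick L (shift X x x') c % H L + x = pick L X c % H L + x' ∧
        (H L ≤ pick L (shift X x x') c ↔ H L ≤ pick L X c) := by
  obtain ⟨h0, s, hs, e⟩ := pick_mem hX hx h1 h2
  have hs' : side L = 2 * H L := rfl
  have e' : shift X x x' = s + x' + (if b then 1 else 0) := by unfold shift; omega
  have hbd : (if b then 1 else 0) ≤ 1 := by split_ifs <;> omega
  have hlt : shift X x x' < side L := by omega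
  have hne : shift X x x' ≠ 0 := by omega
  have hpick : ∀ c, pick L (shift X x x') c = shift X x x' - (if c then 1 else 0) := fun c => by
    cases c
    · simp [pick]
    · rw [pick_true hlt hne]; simp
  have hpick' : ∀ c, pick L X c = X - (if c then 1 else 0) := fun c => by
    cases c
    · simp [pick]
    · rw [pick_true hX h0]; simp
  have hb' : pick L (shift X x x') b % H L = x' := by
    rw [hpick, e', Nat.add_sub_cancel]
    rcases hs with rfl | rfl
    · rw [Nat.zero_add, Nat.mod_eq_of_lt (by omega)]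
    · rw [Nat.add_mod_left, Nat.mod_eq_of_lt (by omega)]
  refine ⟨hlt, hne, hb', fun c => ?_⟩
  have n1 := near hX hx h1 h2 c
  have n2 := near hlt hb' h1' h2' c
  refine ⟨by omega, ?_⟩
  rw [hpick, hpick']
  cases c <;> cases b <;> simp only [Bool.false_eq_true, if_false, if_true] at e e' ⊢ <;> omega

lemma H_split (L : ℕ) : H L = M L ^ 2 * M L := by rw [H]; ring

/-- The parts of the neighbours of a coordinate with interior low part. -/
lemma parts_near {L x a y : ℕ} (ha : lo L x = a) (h1 : 1 ≤ a) (h2 : a + 1 < M L)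
    (hy : y = x ∨ y + 1 = x ∨ y = x + 1) :
    mid L y = mid L x ∧ hi L y = hi L x ∧ lo L y + x = a + y := by
  have hc := coord_eq L x
  have hm := Tile.mid_lt L x
  set T := M L ^ 2 * hi L x + M L * mid L x with hT
  obtain ⟨e, he, hyT⟩ : ∃ e, e < M L ∧ y = T + e := by
    rcases hy with rfl | hy | rfl
    · exact ⟨a, by omega, by omega⟩
    · exact ⟨a - 1, by omega, by omega⟩
    · exact ⟨a + 1, h2, by omega⟩
  obtain ⟨p1, p2, p3⟩ := coord_of (L := L) (a := hi L x) hm he
  rw [hyT, hT]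
  exact ⟨p2, p1, by omega⟩

/-- Rows next to a wire. -/
lemma wire_near {L y y' : ℕ} (hL : L₀ ≤ L) (hw : IsWire L y)
    (hy : y' = y ∨ y' + 1 = y ∨ y' = y + 1) :
    hi L y' = hi L y ∧ 1 ≤ y' ∧ rowIdx L y' ≤ hi L y ∧ rowsBelow L y' ≤ hi L y + 1 := by
  have h8 := eight_lt_M hL
  have hsq : 0 < M L ^ 2 := pow_pos (M_pos L) 2
  have hc := coord_eq L y
  rw [hw.1, hw.2, mul_one, add_zero] at hc
  have hlt : M L + 1 < M L ^ 2 := by
    have := Nat.mul_le_mul_right (M L) (show 2 ≤ M L by omega)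
    rw [← sq] at this
    omega
  have hle : y' ≤ M L ^ 2 * hi L y + M L + 1 := by omega
  have hge : M L ^ 2 * hi L y + M L ≤ y' + 1 := by omega
  have h1 : hi L y' = hi L y := by
    refine Nat.div_eq_of_lt_le ?_ ?_
    · rw [Nat.mul_comm]; omega
    · rw [Nat.add_mul, one_mul, Nat.mul_comm]; omega
  have h3 : rowIdx L y' ≤ hi L y := by
    unfold rowIdx
    rw [Nat.div_le_iff_le_mul_add_pred hsq]
    omega
  refine ⟨h1, by omega, h3, ?_⟩
  unfold rowsBelow
  split_ifs <;> omega

/-- The wire row `k`. -/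
lemma wire_at {L : ℕ} (hL : L₀ ≤ L) {k : ℕ} (hk : k ≤ lastK L) :
    IsWire L (M L ^ 2 * k + M L) ∧ hi L (M L ^ 2 * k + M L) = k ∧ 1 ≤ M L ^ 2 * k + M L ∧
      M L ^ 2 * k + M L + 1 ≤ halfY L ∧ halfY L < H L := by
  have hM := eight_lt_M hL
  have hb := lastK_bound hL
  obtain ⟨e1, e2, e3⟩ := coord_of (L := L) (a := k) (show 1 < M L by omega) (M_pos L)
  rw [mul_one, add_zero] at e1 e2 e3
  refine ⟨⟨e3, e2⟩, e1, by have := M_pos L; omega, ?_, ?_⟩
  · have hh : halfY L = M L ^ 2 * (M L / 2) + 2 * M L := by unfold halfY; ring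
    have := Nat.mul_le_mul_left (M L ^ 2) (show k ≤ M L / 2 by omega)
    omega
  · have h1 : M L ^ 2 * (M L / 2 + 2) ≤ M L ^ 2 * M L := Nat.mul_le_mul_left _ (by omega)
    rw [← H_split, mul_add] at h1
    have hh : halfY L = M L ^ 2 * (M L / 2) + 2 * M L := by unfold halfY; ring
    have h2 := Nat.mul_le_mul_right (M L) (show 2 ≤ M L by omega)
    rw [← sq] at h2
    omega

/-- A low column of the band. -/
lemma band_col {L m a : ℕ} (hm : m < 8) (hM : 8 < M L) (ha : a < M L) :
    IsCol L (M L * m + a) m ∧ lo L (M L * m + a) = a ∧ M L * m + a + 1 < H L ∧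
      M L * m + a < M L * (m + 1) := by
  obtain ⟨e1, e2, e3⟩ := coord_of (L := L) (a := 0) (c := m) (e := a) (by omega) ha
  rw [mul_zero, Nat.zero_add] at e1 e2 e3
  refine ⟨⟨e1, e2⟩, e3, ?_, by rw [Nat.mul_add, mul_one]; omega⟩
  have h1 : M L * (m + 2) ≤ M L * M L := Nat.mul_le_mul_left _ (by omega)
  have h2 : M L * M L ≤ H L := by
    rw [H_split, sq]; exact Nat.le_mul_of_pos_right _ (M_pos L)
  rw [Nat.mul_add] at h1
  omega

/-- A column of the band with middle part `m`. -/
lemma col_eq {L x m : ℕ} (h : IsCol L x m) : x = M L * m + lo L x := by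
  have := coord_eq L x
  rw [h.1, h.2, mul_zero, Nat.zero_add] at this
  exact this

lemma col_bounds {L x m : ℕ} (hL : L₀ ≤ L) (h : IsCol L x m) (h1 : 1 ≤ m) (h7 : m ≤ 7) :
    1 ≤ x ∧ x + 1 < H L ∧ x < M L * (m + 1) ∧ M L * m ≤ x := by
  have hM := eight_lt_M hL
  obtain ⟨-, -, a, b⟩ := band_col (L := L) (m := m) (a := lo L x) (by omega) (by omega)
    (Nat.mod_lt _ (M_pos L))
  have e := col_eq h
  have : M L * 1 ≤ M L * m := Nat.mul_le_mul_left _ h1
  omega

lemma yAt_succ {L Y : ℕ} (hY : Y < side L) (h : Y % H L ≠ 0) :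
    pred' L Y % H L + 1 = Y % H L := by
  rcases pred_cases hY with ⟨-, h', -⟩ | ⟨-, h', -⟩ | ⟨-, h', -⟩ <;> omega

end Vale.Agent.P196.Tile.Minimal
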