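import Vale.Agent.P196.Tile.Minimal.Coords

/-!
P196, module D, minimality: which bits of the parent determine which bits of a window of children.
-/

namespace Vale.Agent.P196.Tile.Minimal

open ChildRules

/-- The row `m` of the parent is read by the scanning or lookup column at `(x, y)`. -/
def Scanned (L x y m : ℕ) : Prop :=
  (IsCol L x 3 ∧ lo L x = 0 ∧ M L ≤ y ∧ rowIdx L y ≤ lastK L ∧ AF ≤ m ∧ m ≤ rowIdx L y) ∨
    (IsZone L x 6 ∧ M L ≤ y ∧ rowsBelow L y ≤ xlRow (B - 1) ∧ m < rowsBelow L y ∧
      (m = 0 ∨ AF ≤ m))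

/-- The rows read by the scanning and lookup columns of a window. -/
def RestVis (L X Y m : ℕ) : Prop := ∃ j, Scanned L (xAt L X j) (yAt L Y j) m

/-- Some tile of the window shows a comparison. -/
def EqWin (q : Quad4 St) : Prop := ∃ j, (q j).fin.eq ≠ none

/-- The rows of finite data which are not determined by the position of a quad in its parent and
the position of that parent. -/
def Soft (q : Quad4 St) (k : ℕ) : Prop := (1 ≤ k ∧ k ≤ 8) ∨ (k = 10 ∧ EqWin q)

/-- The two quads show the same bits on the given rows. -/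
def Agree (L : ℕ) (q q' : Quad4 St) (P : ℕ → Prop) : Prop :=
  ∀ k, P k → quadBits L q' k = quadBits L q k

lemma restVis_rows {L X Y m : ℕ} (h : RestVis L X Y m) : m = 0 ∨ AF ≤ m := by
  obtain ⟨j, h | h⟩ := h
  · exact Or.inr h.2.2.2.2.1
  · exact h.2.2.2.2

lemma scanned_even {L x y m : ℕ} (hL : L₀ ≤ L) (h : Scanned L x y m) :
    (IsCol L x 3 ∨ IsCol L x 6) ∧ lo L x % 2 = 0 := by
  rcases h with h | h
  · exact ⟨Or.inl h.1, by rw [h.2.1]⟩
  · exact ⟨Or.inr h.1.1, by have := h.1.2.1; omega⟩

/-- A window with a bundle column reads nothing on scanning and lookup columns. -/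
lemma no_restVis {L X Y : ℕ} (hL : L₀ ≤ L) (hX : X < side L) {i : Fin 4}
    (hi : IsBundle L (xAt L X i)) (m : ℕ) : ¬ RestVis L X Y m := by
  rintro ⟨j, hj⟩
  obtain ⟨h | h, he⟩ := scanned_even hL hj
  · exact absurd (special_unique hL hX ⟨hi.1, hi.2⟩ ⟨h, he⟩).2 (by norm_num)
  · exact absurd (special_unique hL hX ⟨hi.1, hi.2⟩ ⟨h, he⟩).2 (by norm_num)

/-- A window with a wire row reads only rows up to that one. -/
lemma restVis_le {L X Y m : ℕ} (hL : L₀ ≤ L) (hY : Y < side L) {i : Fin 4}
    (hwi : IsWire L (yAt L Y i)) (h : RestVis L X Y m) : m ≤ hi L (yAt L Y i) := by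
  obtain ⟨j, h⟩ := h
  obtain ⟨-, h1, h3, h4⟩ := wire_near hL hwi (y' := yAt L Y j) (by
    rcases Nat.eq_zero_or_pos (yAt L Y i) with h0 | h0
    · exact absurd (M_le_of_wire hwi) (by have := M_pos L; omega)
    · by_cases htop : yAt L Y i + 1 < H L
      · have := near hY (b := dy i) (x := yAt L Y i) rfl h0 htop (dy j)
        change yAt L Y j + _ = _ at this
        cases hbi : dy i <;> cases hbj : dy j <;> simp [hbi, hbj] at this <;> omega
      · have := (rows_zero hL).2.1
        have e : yAt L Y i = H L - 1 := by have := yAt_lt L Y i; omega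
        exact absurd (e ▸ hwi) this)
  rcases h with h | h <;> omega

/-! ### The bits of a child -/

lemma enc_eq_pos {L : ℕ} (τ : ℕ → Bool) (b b' : ℕ → Quad) (X Y k : ℕ)
    (hk : k = 0 ∨ k = 9 ∨ AF ≤ k) :
    enc L (child L τ b X Y) k = enc L (child L τ b' X Y) k := by
  have hc : claims L (child L τ b X Y) = claims L (child L τ b' X Y) := rfl
  have hn : ∀ i, num L (child L τ b X Y) i = num L (child L τ b' X Y) i := fun i => rfl
  have hA : AF = 900 := rfl
  unfold enc
  by_cases hkA : k < A
  · rw [if_pos hkA, if_pos hkA]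
    unfold finBits
    rcases hk with rfl | rfl | hk
    · rfl
    · simp only [child_eqf]
      split_ifs <;> first | rfl | omega
    · simp only [hc]
      split_ifs <;> first | rfl | omega
  · rw [if_neg hkA, if_neg hkA, hn]

lemma rest_congr {L : ℕ} (τ : ℕ → Bool) {b b' : ℕ → Quad} (X Y : ℕ)
    (h : ∀ m, Scanned L (X % H L) (Y % H L) m → b m = b' m) :
    (child L τ b X Y).fin.rest = (child L τ b' X Y).fin.rest := by
  refine Prod.ext rfl (Prod.ext rfl (Prod.ext ?_ (Prod.ext ?_ rfl)))
  · show (child L τ b X Y).fin.carry = (child L τ b' X Y).fin.carry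
    simp only [child_carry]
    split_ifs with hc
    · refine congrArg some (scan_congr fun k h1 h2 => h k (Or.inl ?_))
      exact ⟨hc.1, hc.2.1, hc.2.2.1, hc.2.2.2.2, h1, h2⟩
    · rfl
  · show (child L τ b X Y).fin.look = (child L τ b' X Y).fin.look
    simp only [child_look]
    split_ifs with hc
    · refine congrArg some (lookAt_congr fun k h1 h2 => h k (Or.inr ?_))
      exact ⟨hc.1, hc.2.1, hc.2.2, h1, h2⟩
    · rfl
where
  step_congr (c : Carry) {k : ℕ} {b b' : ℕ → Quad} (h : AF ≤ k → b k = b' k) :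
      c.step k b = c.step k b' := by
    unfold Carry.step
    by_cases hk : k < AF
    · simp [hk]
    · rw [h (not_lt.1 hk)]
  scan_congr {b b' : ℕ → Quad} : ∀ {n : ℕ}, (∀ k, AF ≤ k → k ≤ n → b k = b' k) →
      scan b n = scan b' n
    | 0, h => step_congr _ fun hk => h 0 hk le_rfl
    | n + 1, h => by
      show (scan b n).step (n + 1) b = (scan b' n).step (n + 1) b'
      rw [scan_congr fun k h1 h2 => h k h1 (h2.trans (Nat.le_succ n))]
      exact step_congr _ fun hk => h _ hk le_rfl
  lookAt_congr {L x n : ℕ} {b b' : ℕ → Quad}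
      (h : ∀ k, k < n → (k = 0 ∨ AF ≤ k) → b k = b' k) : lookAt L x n b = lookAt L x n b' := by
    have e : ∀ {a a' : Fin (2 ^ (A - 2 - AF))} {v v' q q' : Bool}, a = a' → v = v' → q = q' →
        Look.mk a v q = Look.mk a' v' q' := by
      intro a a' v v' q q' h1 h2 h3
      rw [h1, h2, h3]
    unfold lookAt
    refine e ?_ ?_ ?_
    · apply Fin.ext
      refine congrArg (· % 2 ^ (A - 2 - AF)) ?_
      refine Finset.sum_congr rfl fun m hm => ?_
      rw [Finset.mem_range, lt_min_iff] at hm
      rw [h _ (by omega) (Or.inr (Nat.le_add_right _ _))]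
    · rcases Nat.eq_zero_or_pos n with h0 | h0
      · simp [h0]
      · rw [h 0 h0 (Or.inl rfl)]
    · refine decide_eq_decide.2 (forall_congr' fun i => forall_congr' fun _ =>
        forall_congr' fun hi => ?_)
      rw [h _ hi (Or.inr (by unfold xlRow AF A; omega))]

/-! ### The bits of a window -/

section

variable {L : ℕ} (τ : ℕ → Bool) {b b' : ℕ → Quad} {X Y : ℕ}

lemma window_rest (h : ∀ m, RestVis L X Y m → b m = b' m) (j : Fin 4) :
    (window L τ b X Y j).fin.rest = (window L τ b' X Y j).fin.rest :=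
  rest_congr τ _ _ fun m hm => seen_row (h m ⟨j, hm⟩) X Y j

lemma window_pos {k : ℕ} (hk : k = 0 ∨ k = 9 ∨ AF ≤ k) :
    quadBits L (window L τ b X Y) k = quadBits L (window L τ b' X Y) k :=
  funext fun _ => enc_eq_pos τ _ _ _ _ k hk

lemma eqWin_congr : EqWin (window L τ b X Y) ↔ EqWin (window L τ b' X Y) := by
  refine exists_congr fun j => ?_
  simp only [window_apply, child_eqf]
  split_ifs <;> simp

lemma quadBits_h (q : Quad4 St) (c : Fin 4) :
    quadBits L q (c.val + 1) = fun j => (q j).fin.h c := by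
  funext j
  fin_cases c <;> rfl

lemma quadBits_vb (q : Quad4 St) (c : Fin 4) :
    quadBits L q (c.val + 5) = fun j => (q j).fin.vb c := by
  funext j
  fin_cases c <;> rfl

lemma quadBits_ten (q : Quad4 St) : quadBits L q 10 = fun j => decide ((q j).fin.eq = some true) :=
  rfl

lemma ten_of_not_eqWin {q : Quad4 St} (h : ¬ EqWin q) : quadBits L q 10 = fun _ => false := by
  funext j
  rw [quadBits_ten]
  have : (q j).fin.eq = none := by
    by_contra hne
    exact h ⟨j, hne⟩
  simp [this]

lemma quadBits_rest {q q' : Quad4 St} (h : ∀ j, (q j).fin.rest = (q' j).fin.rest) {k : ℕ}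
    (h1 : 11 ≤ k) (h2 : k < AF) : quadBits L q k = quadBits L q' k := by
  funext j
  have hA : A = 1024 := rfl
  have hF : AF = 900 := rfl
  show enc L (q j) k = enc L (q' j) k
  rw [enc, enc, if_pos (by omega), if_pos (by omega)]
  simp only [finBits, h j]
  split_ifs <;> first | rfl | omega

/-- Rows which are not soft are determined by the rows read on scanning and lookup columns. -/
lemma agree_nonSoft (h : ∀ m, RestVis L X Y m → b m = b' m) :
    Agree L (window L τ b X Y) (window L τ b' X Y) fun k => ¬ Soft (window L τ b X Y) k := by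
  intro k hk
  by_cases hp : k = 0 ∨ k = 9 ∨ AF ≤ k
  · exact window_pos τ hp
  simp only [not_or, not_le] at hp
  obtain ⟨h0, h9, hF⟩ := hp
  simp only [Soft, not_or, not_and, not_le] at hk
  by_cases h10 : k = 10
  · subst h10
    rw [ten_of_not_eqWin (hk.2 rfl), ten_of_not_eqWin fun e => hk.2 rfl ((eqWin_congr τ).2 e)]
  · exact quadBits_rest (fun j => (window_rest τ h j).symm) (by omega) hF

/-- A row of horizontal bits. -/
lemma window_h (h : ∀ j, IsLive L (yAt L Y j) → b (hi L (yAt L Y j)) = b' (hi L (yAt L Y j)))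
    (c : Fin 4) : quadBits L (window L τ b X Y) (c.val + 1) =
      quadBits L (window L τ b' X Y) (c.val + 1) := by
  simp only [quadBits_h]
  funext j
  simp only [window_apply, child_h]
  split_ifs with hc
  · exact congrFun (seen_row (h j ⟨hc.1, hc.2.1⟩) X Y j) c
  · rfl

/-- A row of vertical bits. -/
lemma window_vb (h : ∀ j, IsBundle L (xAt L X j) → lo L (xAt L X j) / 2 ≤ lastK L →
      b (lo L (xAt L X j) / 2) = b' (lo L (xAt L X j) / 2))
    (c : Fin 4) : quadBits L (window L τ b X Y) (c.val + 5) =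
      quadBits L (window L τ b' X Y) (c.val + 5) := by
  simp only [quadBits_vb]
  funext j
  simp only [window_apply, child_vb]
  split_ifs with hc
  · exact congrFun (seen_row (h j hc.1 hc.2.1) X Y j) c
  · rfl

/-- A window is determined by the shown rows, the rows read by its columns, and its comparisons. -/
lemma window_congr (hh : ∀ j, IsLive L (yAt L Y j) → b (hi L (yAt L Y j)) = b' (hi L (yAt L Y j)))
    (hv : ∀ j, IsBundle L (xAt L X j) → lo L (xAt L X j) / 2 ≤ lastK L →
      b (lo L (xAt L X j) / 2) = b' (lo L (xAt L X j) / 2))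
    (hr : ∀ m, RestVis L X Y m → b m = b' m)
    (he : ∀ j, IsZone L (xAt L X j) 4 → M L ≤ yAt L Y j → rowsBelow L (yAt L Y j) ≤ A - 1 →
      ∀ k < rowsBelow L (yAt L Y j), b k = b' k) :
    window L τ b X Y = window L τ b' X Y := by
  funext j
  have h1 : (window L τ b X Y j).fin.h = (window L τ b' X Y j).fin.h := funext fun c =>
    congrFun ((quadBits_h (L := L) _ c).symm.trans ((window_h τ hh c).trans (quadBits_h _ c))) j
  have h2 : (window L τ b X Y j).fin.vb = (window L τ b' X Y j).fin.vb := funext fun c =>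
    congrFun ((quadBits_vb (L := L) _ c).symm.trans ((window_vb τ hv c).trans (quadBits_vb _ c))) j
  have h3 : (window L τ b X Y j).fin.eq = (window L τ b' X Y j).fin.eq := by
    simp only [window_apply, child_eqf]
    split_ifs with hc
    · refine congrArg some (decide_eq_decide.2 (forall_congr' fun k => forall_congr' fun hk => ?_))
      unfold zoneMatch
      rw [seen_row (he j hc.1 hc.2.1 hc.2.2 k hk) X Y j]
    · rfl
  have h4 := window_rest τ hr j
  simp only [Fin'.rest, Prod.mk.injEq] at h4
  obtain ⟨-, -, hc, hl, -⟩ := h4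
  simp only [window_apply] at h1 h2 h3 hc hl ⊢
  unfold child at h1 h2 h3 hc hl ⊢
  simp only [St.mk.injEq, Fin'.mk.injEq, true_and, and_true] at h1 h2 h3 hc hl ⊢
  exact ⟨h1, h2, hc, h3, hl⟩

end

end Vale.Agent.P196.Tile.Minimal
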