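import Vale.Agent.P196.Tile.Minimal.EqColumn

/-!
P196, module D, minimality: a comparing window below an arbitrary quad, in a suitable column.
-/

namespace Vale.Agent.P196.Tile.Minimal

open ChildRules

/-- The table column asking for the bits `f`. -/
def mk (f : ℕ → Fin 4 → Bool) : ℕ :=
  Nat.ofBits fun n : Fin B => decide (n.val = 1) ||
    (decide (2 ≤ n.val) && f ((n.val - 2) / 4) ⟨(n.val - 2) % 4, Nat.mod_lt _ (by norm_num)⟩)

lemma mk_high (f : ℕ → Fin 4 → Bool) {i : ℕ} (h2 : 2 ≤ i) :
    (mk f).testBit i =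
      (decide (i < B) && f ((i - 2) / 4) ⟨(i - 2) % 4, Nat.mod_lt _ (by norm_num)⟩) := by
  rw [mk, Nat.testBit_ofBits]
  by_cases h : i < B
  · simp [h, h2, show i ≠ 1 by omega]
  · simp [h]

lemma mk_bit (f : ℕ → Fin 4 → Bool) {k : ℕ} (hk : k < A) (c : Fin 4) :
    (mk f).testBit (4 * k + c.val + 2) = f k c := by
  have e : (⟨(4 * k + c.val + 2 - 2) % 4, Nat.mod_lt _ (by norm_num)⟩ : Fin 4) = c :=
    Fin.ext (show (4 * k + c.val + 2 - 2) % 4 = c.val by omega)
  rw [mk_high f (by omega), e, show (4 * k + c.val + 2 - 2) / 4 = k by omega,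
    decide_eq_true (show 4 * k + c.val + 2 < B by unfold B; omega), Bool.true_and]

lemma mk_code (f : ℕ → Fin 4 → Bool) (h : f (A - 1) 3 = true) : IsCode (mk f) := by
  have hA : A = 1024 := rfl
  have hB : B = 4 * A + 2 := rfl
  refine ⟨?_, ?_, Nat.ofBits_lt_two_pow _⟩
  · have h0 : (mk f).testBit 0 = false := by
      rw [mk, Nat.testBit_ofBits, dif_pos (by omega)]
      simp
    have h1 : (mk f).testBit 1 = true := by
      rw [mk, Nat.testBit_ofBits, dif_pos (by omega)]
      simp
    rw [Nat.testBit_zero, decide_eq_false_iff_not] at h0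
    rw [Nat.testBit_succ, Nat.testBit_zero, decide_eq_true_iff] at h1
    omega
  · refine Nat.ge_two_pow_of_testBit ?_
    rw [show B - 1 = 4 * (A - 1) + (3 : Fin 4).val + 2 by simp; omega, mk_bit f (by omega)]
    exact h

lemma code_top {z : ℕ} (hz : IsCode z) : z.testBit (B - 1) = true := by
  obtain ⟨-, h1, h2⟩ := hz
  obtain ⟨m, hm⟩ : ∃ m, B = m + 1 := ⟨B - 1, by unfold B; omega⟩
  rw [show B - 1 = m by omega] at h1 ⊢
  rw [hm, pow_succ] at h2
  have : z / 2 ^ m = 1 := Nat.div_eq_of_lt_le (by omega) (by omega)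
  simp [Nat.testBit_eq_decide_div_mod_eq, this]

variable {L : ℕ}

/-- The column with the compared rows changed from the bits `b` to the bits `b'`. -/
def copyCol (b b' : ℕ → Quad) (x n : ℕ) : ℕ :=
  mk fun k c => if k < n then xor (xor (b k c) (b' k c)) (x.testBit (4 * k + c.val + 2))
    else x.testBit (4 * k + c.val + 2)

lemma copy_code (b b' : ℕ → Quad) {x n : ℕ} (hx : IsCode x) (hn : n ≤ A - 1) :
    IsCode (copyCol b b' x n) := by
  refine mk_code _ ?_
  rw [if_neg (by omega), show 4 * (A - 1) + (3 : Fin 4).val + 2 = B - 1 by simp [B, A]]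
  exact code_top hx

lemma copy_match (b b' : ℕ → Quad) (x : ℕ) {n m : ℕ} (hm : m ≤ n) (hn : n ≤ A - 1) :
    (∀ k < m, ∀ c : Fin 4, b' k c = (copyCol b b' x n).testBit (4 * k + c.val + 2)) ↔
      ∀ k < m, ∀ c : Fin 4, b k c = x.testBit (4 * k + c.val + 2) := by
  refine forall_congr' fun k => forall_congr' fun hk => forall_congr' fun c => ?_
  have hA : A = 1024 := rfl
  rw [copyCol, mk_bit _ (by omega), if_pos (by omega)]
  cases b k c <;> cases b' k c <;> cases x.testBit (4 * k + c.val + 2) <;> simp

lemma copy_bit (b b' : ℕ → Quad) {x n i : ℕ} (hx : x < 2 ^ B) (h2 : 2 ≤ i)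
    (h : (i - 2) / 4 < n → b' ((i - 2) / 4) = b ((i - 2) / 4)) :
    (copyCol b b' x n).testBit i = x.testBit i := by
  rw [copyCol, mk_high _ h2]
  by_cases hi : i < B
  · have e : 4 * ((i - 2) / 4) + (i - 2) % 4 + 2 = i := by omega
    simp only [hi, decide_true, Bool.true_and, e]
    split_ifs with hk
    · rw [h hk]; simp
    · rfl
  · rw [Nat.testBit_lt_two_pow (hx.trans_le (Nat.pow_le_pow_right (by norm_num) (not_lt.1 hi)))]
    simp [hi]

lemma copy_slot (b b' : ℕ → Quad) {x n k : ℕ} (hx : x < 2 ^ B) (c : Fin 4)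
    (h : k < n → b' k = b k) :
    (copyCol b b' x n).testBit (4 * k + c.val + 2) = x.testBit (4 * k + c.val + 2) :=
  copy_bit b b' hx (by omega) (by rw [show (4 * k + c.val + 2 - 2) / 4 = k by omega]; exact h)

variable {X Y : ℕ} {i : Fin 4} {τ : ℕ → Bool}

lemma newX_finBits {b b' : ℕ → Quad} {z : ℕ}
    (h : ∀ j, sig L (window L τ b' (newX L X i z) Y) j = sig L (window L τ b X Y) j) {k : ℕ}
    (hk : k < A) :
    quadBits L (window L τ b' (newX L X i z) Y) k = quadBits L (window L τ b X Y) k := by
  funext j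
  show enc L _ k = enc L _ k
  rw [enc, enc, if_pos hk, if_pos hk]
  exact congrArg (fun s => finBits s k) (h j)

variable {T : Quad4 St}

/-- The comparisons alone. -/
lemma rep_eq_low (d : EqData L X Y i) (hlow : hi L (Y % H L) < A - 1) :
    Rep L (window L table (quadBits (L + 1) T) X Y) fun k => k = 0 ∨ k = 10 := by
  refine (rep_none (L + 1) T).step fun S' _ => ?_
  set b := quadBits (L + 1) T
  set b' := quadBits (L + 1) S'
  set x := lo L (xAt L X i)
  set z := copyCol b b' x (nRows L Y)
  have hn : nRows L Y ≤ A - 1 := min_le_left _ _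
  have hz : IsCode z := copy_code b b' d.col.2 hn
  refine ⟨newX L X i z, Y, (col_spec d hz).1, d.hY, fun k hk => funext fun j => ?_⟩
  rcases hk with rfl | rfl
  · exact newX_v (τ := table) (b := b) (b' := b') d hz (Or.inl hlow) j
  · show decide ((window L table b' (newX L X i z) Y j).fin.eq = some true) =
      decide ((window L table b X Y j).fin.eq = some true)
    rw [newX_eq (τ := table) d hz (fun n h1 _ => copy_match b b' x h1 hn) j]

/-- The comparisons and one bit of a number. -/
lemma rep_eq_num (d : EqData L X Y i) {k : ℕ} (hk : A ≤ k)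
    (h : Rep (L + 1) T fun m => m = ((k - A) / 8 - 2) / 4) :
    Rep L (window L table (quadBits (L + 1) T) X Y) fun m => m = 10 ∨ m = k := by
  refine h.step fun S' ha => ?_
  set b := quadBits (L + 1) T
  set b' := quadBits (L + 1) S'
  set x := lo L (xAt L X i)
  set z := copyCol b b' x (nRows L Y)
  have hn : nRows L Y ≤ A - 1 := min_le_left _ _
  have hz : IsCode z := copy_code b b' d.col.2 hn
  refine ⟨newX L X i z, Y, (col_spec d hz).1, d.hY, fun m hm => ?_⟩
  rcases hm with rfl | rfl
  · funext j
    show decide ((window L table b' (newX L X i z) Y j).fin.eq = some true) =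
      decide ((window L table b X Y j).fin.eq = some true)
    rw [newX_eq (τ := table) d hz (fun n h1 _ => copy_match b b' x h1 hn) j]
  · exact newX_num d hz hk fun _ h2 => copy_bit b b' d.col.2.2.2 h2 fun _ => ha _ rfl

/-- The finite data below compared rows. -/
lemma rep_eq_sig_low (d : EqData L X Y i) (hlow : hi L (Y % H L) < A - 1)
    (h : Rep (L + 1) T fun m => m = hi L (Y % H L - 1)) :
    Rep L (window L table (quadBits (L + 1) T) X Y) fun k => k < A := by
  refine h.step fun S' ha => ?_
  set b := quadBits (L + 1) T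
  set b' := quadBits (L + 1) S'
  set x := lo L (xAt L X i)
  set z := copyCol b b' x (nRows L Y)
  have hn : nRows L Y ≤ A - 1 := min_le_left _ _
  have hz : IsCode z := copy_code b b' d.col.2 hn
  refine ⟨newX L X i z, Y, (col_spec d hz).1, d.hY, fun k hk => newX_finBits (fun j => ?_) hk⟩
  exact newX_sig d hz (fun n h1 _ => copy_match b b' x h1 hn) (Or.inl hlow) (fun _ => ha _ rfl)
    (fun c => copy_slot b b' d.col.2.2.2 c fun _ => ha _ rfl)
    (fun c h' => copy_slot b b' d.col.2.2.2 c fun h'' => absurd h'' (by omega)) j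

lemma bits_sig {L : ℕ} (q : Quad4 St) {k : ℕ} (hk : k < A) (c : Fin 4) :
    quadBits L q k c = finBits (sig L q c) k := by
  show enc L (q c) k = _
  rw [enc, if_pos hk]
  rfl

lemma finBits_one (s : Fin' × Claims) : finBits s (A - 1) = true ∧ finBits s (A - 2) = true := by
  constructor <;> rw [finBits] <;> norm_num [A, AF]

lemma table_false {x k : ℕ} (hk : k = A - 1 ∨ k = A - 2) {c : Fin 4}
    (h : x.testBit (4 * k + c.val + 2) = false) : table x = false := by
  have hA : A = 1024 := rfl
  simp only [table, decide_eq_false_iff_not]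
  rintro ⟨s, -, hs⟩
  have := hs k (by omega) c
  rw [h] at this
  rcases hk with rfl | rfl
  · rw [(finBits_one (s c)).1] at this; exact Bool.noConfusion this
  · rw [(finBits_one (s c)).2] at this; exact Bool.noConfusion this

/-- The finite data at the last compared row: the table value has to be reproduced. -/
lemma rep_eq_top (d : EqData L X Y i) (htop : hi L (Y % H L) = A - 1) (hT : Valid (L + 1) T) :
    Rep L (window L table (quadBits (L + 1) T) X Y) fun k => k < A := by
  classical
  set b := quadBits (L + 1) T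
  set x := lo L (xAt L X i)
  have hA : A = 1024 := rfl
  obtain ⟨-, -, h3, h4⟩ := rowsBelow_mono d.hL d.top
  have hn : nRows L Y ≤ A - 1 := min_le_left _ _
  have hn' : nRows L Y = A - 1 := by
    have := (rowsBelow_mono d.hL d.top).1
    unfold nRows at *
    omega
  have hrange : hi L (Y % H L - 1) = A - 1 ∨ hi L (Y % H L - 1) = A - 2 := by
    obtain ⟨t, ht⟩ : ∃ t, Y % H L = t + 1 := ⟨Y % H L - 1, by have := d.top; omega⟩
    rw [ht, Nat.add_sub_cancel]
    rw [ht] at htop
    have e : (t + 1) / M L ^ 2 = t / M L ^ 2 + if M L ^ 2 ∣ t + 1 then 1 else 0 := Nat.succ_div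
    unfold hi at *
    split_ifs at e <;> omega
  have hone : ∀ (q : Quad4 St) (k : ℕ), k = A - 1 ∨ k = A - 2 → ∀ c,
      quadBits (L + 1) q k c = true := fun q k hk c => by
    rw [ones_row q hk.symm]
  have hhl : ∀ q : Quad4 St, quadBits (L + 1) q (hi L (Y % H L - 1)) = b (hi L (Y % H L - 1)) :=
    fun q => funext fun c => (hone q _ hrange c).trans (hone T _ hrange c).symm
  by_cases hones : ∀ k, k = A - 1 ∨ k = A - 2 → ∀ c : Fin 4, x.testBit (4 * k + c.val + 2) = true
  swap
  · push Not at hones
    obtain ⟨k₀, hk₀, c₀, hc₀⟩ := hones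
    simp only [ne_eq, Bool.not_eq_true] at hc₀
    refine (rep_none (L + 1) T).step fun S' _ => ?_
    set b' := quadBits (L + 1) S'
    set z := copyCol b b' x (nRows L Y)
    have hz : IsCode z := copy_code b b' d.col.2 hn
    have hkeep : ∀ k, (k = A - 1 ∨ k = A - 2) → ∀ c : Fin 4,
        z.testBit (4 * k + c.val + 2) = x.testBit (4 * k + c.val + 2) := fun k hk c =>
      copy_slot b b' d.col.2.2.2 c fun _ =>
        funext fun c => (hone S' k hk c).trans (hone T k hk c).symm
    refine ⟨newX L X i z, Y, (col_spec d hz).1, d.hY, fun k hk => newX_finBits (fun j => ?_) hk⟩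
    exact newX_sig d hz (fun n h1 _ => copy_match b b' x h1 hn)
      (Or.inr ((table_false hk₀ ((hkeep k₀ hk₀ c₀).trans hc₀)).trans (table_false hk₀ hc₀).symm))
      (fun _ => hhl S') (fun c => hkeep _ hrange c)
      (fun c _ => hkeep _ (Or.inl htop) c) j
  -- all four bits of both constant rows are one
  obtain ⟨X', Y', hX', hY', hq, hblank⟩ := exists_blank (L := L + 1) (by have := d.hL; omega)
  obtain ⟨s, hs, hsv⟩ := exists_marked d.hL
  refine ⟨2, fun T' => ?_⟩
  set S' := window (L + 1) table (quadBits (L + 1 + 1) T') X' Y'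
  set b' := quadBits (L + 1) S'
  set m : Prop := ∀ k < A - 1, ∀ c : Fin 4, b k c = x.testBit (4 * k + c.val + 2)
  set f : ℕ → Fin 4 → Bool :=
    if m then b' else if table x = true then fun k c => finBits (s c) k
      else fun k _ => decide (k ≠ 9) with hf
  have hf1 : ∀ k, (k = A - 1 ∨ k = A - 2) → ∀ c, f k c = true := by
    intro k hk c
    rw [hf]
    split_ifs
    · exact hone S' k hk c
    · rcases hk with rfl | rfl
      · exact (finBits_one (s c)).1
      · exact (finBits_one (s c)).2
    · simp; omega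
  have hz : IsCode (mk f) := mk_code f (hf1 _ (Or.inl rfl) 3)
  have hbit : ∀ k, k < A → ∀ c : Fin 4, (mk f).testBit (4 * k + c.val + 2) = f k c :=
    fun k hk c => mk_bit f hk c
  have hin' : InS (sig (L + 1) S') :=
    inS_quiet (by have := d.hL; omega) hX' hY' hq _ _
  have hS0 : ∀ k, (k = 0 ∨ k = 9 ∨ k = 10) → b' k = fun _ => false := fun k hk => hblank _ _ k hk
  have hflag : (∀ k < A - 1, ∀ c : Fin 4, b' k c = (mk f).testBit (4 * k + c.val + 2)) ↔ m := by
    constructor
    · intro h
      by_contra hm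
      have e0 := h 0 (by omega) 0
      have e10 := h 10 (by omega) 0
      rw [hbit 0 (by omega), hS0 0 (Or.inl rfl), hf, if_neg hm] at e0
      rw [hbit 10 (by omega), hS0 10 (Or.inr (Or.inr rfl)), hf, if_neg hm] at e10
      split_ifs at e0 e10
      · dsimp only at e0
        rw [hsv] at e0; exact Bool.noConfusion e0
      · simp at e10
    · intro hm k hk c
      rw [hbit k (by omega), hf, if_pos hm]
  have htab : table (mk f) = table x := by
    by_cases hm : m
    · have h1 : table x = true := table_of_input hT.1.2.2.2.2.2.2.2 fun k hk c => by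
        rw [← bits_sig T hk c]
        rcases Nat.lt_or_ge k (A - 1) with hk' | hk'
        · exact hm k hk' c
        · rw [hone T k (Or.inl (by omega)) c, hones k (Or.inl (by omega)) c]
      rw [h1]
      exact table_of_input hin' fun k hk c => by
        rw [← bits_sig S' hk c, hbit k hk, hf, if_pos hm]
    · by_cases ht : table x = true
      · rw [ht]
        exact table_of_input hs fun k hk c => by rw [hbit k hk, hf, if_neg hm, if_pos ht]
      · rw [Bool.not_eq_true] at ht
        rw [ht]
        simp only [table, decide_eq_false_iff_not]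
        rintro ⟨s', -, hs'⟩
        have e9 := hs' 9 (by omega) 0
        have e10 := hs' 10 (by omega) 0
        rw [hbit 9 (by omega), hf, if_neg hm, if_neg (by simp [ht])] at e9
        rw [hbit 10 (by omega), hf, if_neg hm, if_neg (by simp [ht])] at e10
        simp [finBits] at e9 e10
        rw [e10] at e9
        exact Option.some_ne_none _ e9
  refine ⟨_, ⟨S', ⟨T', rfl, X', Y', hX', hY', rfl⟩, newX L X i (mk f), Y, (col_spec d hz).1, d.hY,
    rfl⟩, fun k hk => newX_finBits (fun j => ?_) hk⟩
  refine newX_sig d hz (fun n h1 h2 => ?_) (Or.inr htab) (fun _ => hhl S')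
    (fun c => ?_) (fun c _ => ?_) j
  · obtain rfl : n = A - 1 := by omega
    exact hflag
  · rw [hbit _ (by omega), hf1 _ hrange c, hones _ hrange c]
  · rw [hbit _ (by omega), hf1 _ (Or.inl htop) c, hones _ (Or.inl htop) c]

end Vale.Agent.P196.Tile.Minimal
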