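import Vale.Agent.P196.Tile.Minimal.Move

/-!
P196, module D, minimality: a window comparing a table column, seen from another column.
-/

namespace Vale.Agent.P196.Tile.Minimal

open ChildRules

variable {L X Y : ℕ} {τ : ℕ → Bool} {b b' : ℕ → Quad}

/-! ### Rows of a comparing window -/

lemma rowsBelow_mono (hL : L₀ ≤ L) {y : ℕ} (hy : 1 ≤ y) :
    rowsBelow L (y - 1) ≤ rowsBelow L y ∧ hi L (y - 1) ≤ hi L y ∧
      hi L y ≤ rowsBelow L (y - 1) ∧ (hi L (y - 1) = hi L y ∨ rowsBelow L y ≤ hi L y) := by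
  obtain ⟨t, rfl⟩ : ∃ t, y = t + 1 := ⟨y - 1, by omega⟩
  rw [Nat.add_sub_cancel]
  have hM := eight_lt_M hL
  have hsq : 0 < M L ^ 2 := pow_pos (M_pos L) 2
  have hlt : M L + 1 < M L ^ 2 := by
    have := Nat.mul_le_mul_right (M L) (show 2 ≤ M L by omega)
    rw [← sq] at this
    omega
  obtain ⟨-, r2, r3, r4⟩ := rows_succ hL t
  have hmono : hi L t ≤ hi L (t + 1) := Nat.div_le_div_right (Nat.le_succ t)
  refine ⟨?_, hmono, ?_, ?_⟩
  · by_cases hw : IsWire L t
    · obtain ⟨-, e, -, -, e'⟩ := r2 hw; omega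
    · by_cases hw' : IsWire L (t + 1)
      · exact (r3 hw').1.ge
      · exact (r4 hw hw').1.ge
  · unfold rowsBelow
    split_ifs with h1 h2
    · exact le_of_eq (Nat.div_eq_of_lt (by omega))
    · rw [rowIdx_wire h2]
      have := (wire_near hL h2 (y' := t + 1) (Or.inr (Or.inr rfl))).1
      omega
    · have e : (t - M L + M L ^ 2) / M L ^ 2 = rowIdx L t + 1 := Nat.add_div_right _ hsq
      rw [← e]
      exact Nat.div_le_div_right (by omega)
  · by_cases h : M L ^ 2 ∣ t + 1
    · right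
      obtain ⟨a, ha⟩ := h
      have ea : hi L (t + 1) = a := by
        show (t + 1) / M L ^ 2 = a
        rw [ha, Nat.mul_div_cancel_left _ hsq]
      rw [ea]
      unfold rowsBelow
      have ha1 : 1 ≤ a := by
        rcases Nat.eq_zero_or_pos a with rfl | h0
        · simp at ha
        · exact h0
      split_ifs with h1 h2
      · exact Nat.zero_le _
      · rw [rowIdx_wire h2, ea]
      · have : rowIdx L (t + 1) < a := by
          unfold rowIdx
          rw [Nat.div_lt_iff_lt_mul hsq, Nat.mul_comm]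
          omega
        omega
    · left
      show t / M L ^ 2 = (t + 1) / M L ^ 2
      rw [Nat.succ_div, if_neg h, add_zero]

/-- What is known about a comparing window. -/
structure EqData (L X Y : ℕ) (i : Fin 4) : Prop where
  hL : L₀ ≤ L
  hX : X < side L
  hY : Y < side L
  col : IsZone L (xAt L X i) 4
  top : 1 ≤ Y % H L
  hu : hi L (Y % H L) ≤ A - 1
  hl : hi L (Y % H L - 1) ≤ hi L (Y % H L)

lemma eqData (hL : L₀ ≤ L) (hX : X < side L) (hY : Y < side L)
    (he : EqWin (window L τ b X Y)) : ∃ i, EqData L X Y i := by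
  obtain ⟨i, hi0⟩ := he
  rw [window_apply, child_eqf] at hi0
  by_cases h : IsZone L (xAt L X i) 4 ∧ M L ≤ yAt L Y i ∧ rowsBelow L (yAt L Y i) ≤ A - 1
  swap
  · exact absurd (if_neg h) hi0
  clear hi0
  obtain ⟨hz, hM, hr⟩ := h
  have hA : A = 1024 := rfl
  have htop : 1 ≤ Y % H L := by
    by_contra h0
    obtain ⟨hn0, hnH, -, hrow, -, -, hM0⟩ := rows_zero hL
    cases hd : dy i
    · simp only [yAt, pick, hd, Bool.false_eq_true, if_false] at hM
      omega
    · simp only [yAt, pick, hd, if_true] at hr hM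
      have e : pred' L Y % H L = H L - 1 := by
        rcases pred_cases hY with ⟨-, -, e, -⟩ | ⟨-, -, e, -⟩ | ⟨e, -⟩
        · exact e
        · exact e
        · omega
      rw [e, rowsBelow, if_neg (by rw [e] at hM; omega), if_neg hnH] at hr
      unfold lastK at hrow
      omega
  obtain ⟨m1, m2, m3, -⟩ := rowsBelow_mono hL htop
  refine ⟨i, hL, hX, hY, hz, htop, ?_, m2⟩
  refine m3.trans ?_
  cases hd : dy i
  · simp only [yAt, pick, hd, Bool.false_eq_true, if_false] at hr
    exact m1.trans hr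
  · simp only [yAt, pick, hd, if_true] at hr
    rw [← yAt_succ hY (by omega), Nat.add_sub_cancel]
    exact hr

lemma EqData.yCases {i : Fin 4} (d : EqData L X Y i) (j : Fin 4) :
    yAt L Y j = Y % H L ∨ yAt L Y j = Y % H L - 1 := by
  have := d.top
  cases hd : dy j
  · left; simp [yAt, pick, hd]
  · right
    simp only [yAt, pick, hd, if_true]
    have := yAt_succ d.hY (show Y % H L ≠ 0 by omega)
    omega

lemma EqData.Y0 {i : Fin 4} (d : EqData L X Y i) : Y ≠ 0 := fun h => by
  have := d.top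
  simp [h] at this

/-- The number of compared rows which may differ. -/
def nRows (L Y : ℕ) : ℕ := min (A - 1) (rowsBelow L (Y % H L))

lemma EqData.rows {i : Fin 4} (d : EqData L X Y i) (j : Fin 4) :
    (rowsBelow L (yAt L Y j) ≤ A - 1 → rowsBelow L (yAt L Y j) ≤ nRows L Y) ∧
      hi L (Y % H L) ≤ rowsBelow L (yAt L Y j) ∧
      (hi L (yAt L Y j) = hi L (Y % H L - 1) ∨
        (hi L (yAt L Y j) = hi L (Y % H L) ∧ nRows L Y ≤ hi L (Y % H L))) := by
  obtain ⟨m1, m2, m3, m4⟩ := rowsBelow_mono d.hL d.top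
  unfold nRows
  rcases d.yCases j with e | e <;> rw [e]
  · refine ⟨fun h => by omega, by omega, ?_⟩
    rcases m4 with h | h
    · exact Or.inl h.symm
    · exact Or.inr ⟨rfl, by omega⟩
  · exact ⟨fun h => by omega, m3, Or.inl rfl⟩

/-! ### Another column -/

/-- The low parts of table columns. -/
def IsCode (z : ℕ) : Prop := z % 4 = 2 ∧ 2 ^ (B - 1) ≤ z ∧ z < 2 ^ B

/-- The window with the special column at the low part `z`. -/
def newX (L X : ℕ) (i : Fin 4) (z : ℕ) : ℕ := shift X (xAt L X i) (M L * 4 + z)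

lemma pow_B (hL : L₀ ≤ L) : 2 * A + 2 < 2 ^ (B - 1) ∧ 2 ^ B + 1 < M L ∧ 4 ∣ 2 ^ B := by
  have h50 := le_L₀.trans hL
  have h1 : 2 ^ (B + 1) ≤ 2 ^ L := Nat.pow_le_pow_right (by norm_num) (by unfold B A; omega)
  have h2 : 2 ^ 12 ≤ 2 ^ (B - 1) := Nat.pow_le_pow_right (by norm_num) (by unfold B A; omega)
  have h3 : (1 : ℕ) < 2 ^ B := Nat.one_lt_two_pow (by unfold B; omega)
  rw [pow_succ] at h1
  refine ⟨by norm_num at h2; unfold A; omega, ?_, Nat.pow_dvd_pow 2 (show 2 ≤ B by unfold B; omega)⟩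
  show _ < 2 ^ L
  omega

lemma testBit_near {a a' z z' : ℕ} (h4 : a % 4 = a' % 4) (hz : a / 4 = z / 4) (hz' : a' / 4 = z' / 4)
    {n : ℕ} (h : 2 ≤ n → z.testBit n = z'.testBit n) : a.testBit n = a'.testBit n := by
  match n with
  | 0 => rw [Nat.testBit_zero, Nat.testBit_zero]; congr 1; exact propext (by omega)
  | 1 =>
    rw [Nat.testBit_succ, Nat.testBit_succ, Nat.testBit_zero, Nat.testBit_zero]
    congr 1; exact propext (by omega)
  | m + 2 =>
    have key : ∀ c : ℕ, c.testBit (m + 2) = (c / 4).testBit m := fun c => by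
      rw [Nat.testBit_succ, Nat.testBit_succ, Nat.div_div_eq_div_mul]
    rw [key, key, hz, hz', ← key, ← key]
    exact h (by omega)

/-- The tiles at the new column. -/
lemma col_spec {i : Fin 4} (d : EqData L X Y i) {z : ℕ} (hz : IsCode z) :
    newX L X i z < side L ∧ newX L X i z ≠ 0 ∧ X ≠ 0 ∧ ∀ j,
      (IsZone L (xAt L (newX L X i z) j) 4 ↔ IsZone L (xAt L X j) 4) ∧
      (IsZone L (xAt L X j) 4 → lo L (xAt L (newX L X i z) j) = z ∧
        lo L (xAt L X j) = lo L (xAt L X i)) ∧
      IsCol L (xAt L (newX L X i z) j) 4 ∧ IsCol L (xAt L X j) 4 ∧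
      (H L ≤ pick L (newX L X i z) (dx j) ↔ H L ≤ pick L X (dx j)) ∧
      (lo L (xAt L (newX L X i z) j) % 4 = lo L (xAt L X j) % 4 ∧
        lo L (xAt L (newX L X i z) j) / 4 = z / 4 ∧
        lo L (xAt L X j) / 4 = lo L (xAt L X i) / 4 ∧
        1 ≤ lo L (xAt L X j) ∧ lo L (xAt L X j) + 1 < M L ∧
        1 ≤ lo L (xAt L (newX L X i z) j) ∧ lo L (xAt L (newX L X i z) j) + 1 < M L ∧
        2 * A < lo L (xAt L X j) ∧ 2 * A < lo L (xAt L (newX L X i z) j)) ∧
      (xAt L X j ≠ 0 ∧ xAt L X j ≤ cutX L ∧ xAt L (newX L X i z) j ≠ 0 ∧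
        xAt L (newX L X i z) j ≤ cutX L) := by
  obtain ⟨hL, hX, -, hc, -, -, -⟩ := d
  obtain ⟨p1, p2, p3⟩ := pow_B hL
  obtain ⟨hz4, hz1, hz2⟩ := hz
  set x := xAt L X i with hx
  have hM := eight_lt_M hL
  obtain ⟨hc', hlo', h2', h3'⟩ := band_col (L := L) (m := 4) (by norm_num) (by omega)
    (show z < M L by omega)
  obtain ⟨h1, h2, h3, h4⟩ := col_bounds hL hc.1 (by norm_num) (by norm_num)
  set x' := M L * 4 + z
  have ha := hc.2.1
  have ha1 := hc.2.2.1
  have ha2 := hc.2.2.2
  obtain ⟨hlt, hne, hxi, hall⟩ := shift_spec hX (b := dx i) (x := x) rfl h1 h2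
    (by omega : 1 ≤ x') h2'
  refine ⟨hlt, hne, (pick_mem hX (b := dx i) (x := x) rfl h1 h2).1, fun j => ?_⟩
  obtain ⟨e, hq⟩ := hall (dx j)
  change xAt L (newX L X i z) j + x = xAt L X j + x' at e
  have n1 : xAt L X j + (if dx j then 1 else 0) = x + (if dx i then 1 else 0) :=
    near hX (x := x) rfl h1 h2 (dx j)
  have hij : (if dx j then 1 else 0) ≤ 1 ∧ (if dx i then 1 else 0) ≤ 1 := by
    constructor <;> split_ifs <;> omega
  obtain ⟨o1, o2, o3⟩ := parts_near (L := L) (x := x) (a := lo L x) (y := xAt L X j) rfl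
    (by omega) (by omega) (by omega)
  obtain ⟨w1, w2, w3⟩ := parts_near (L := L) (x := x') (a := z) (y := xAt L (newX L X i z) j) hlo'
    (by omega) (by omega) (by omega)
  rw [hc.1.1] at o2
  rw [hc.1.2] at o1
  rw [hc'.1] at w2
  rw [hc'.2] at w1
  have hcut : cutX L = 7 * M L := rfl
  refine ⟨⟨fun h => ?_, fun h => ?_⟩, fun h => ?_, ⟨w2, w1⟩, ⟨o2, o1⟩, hq,
    ⟨by omega, by omega, by omega, by omega, by omega, by omega, by omega, by omega, by omega⟩,
    ⟨by omega, by omega, by omega, by omega⟩⟩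
  · have := h.2.1
    exact ⟨⟨o2, o1⟩, by omega, by omega, by omega⟩
  · have := h.2.1
    exact ⟨⟨w2, w1⟩, by omega, by omega, by omega⟩
  · have := h.2.1
    exact ⟨by omega, by omega⟩

/-- The comparisons of the moved window. -/
lemma newX_eq {i : Fin 4} (d : EqData L X Y i) {z : ℕ} (hz : IsCode z)
    (hm : ∀ n, n ≤ nRows L Y → hi L (Y % H L) ≤ n →
      ((∀ k < n, ∀ c : Fin 4, b' k c = z.testBit (4 * k + c.val + 2)) ↔
        ∀ k < n, ∀ c : Fin 4, b k c = (lo L (xAt L X i)).testBit (4 * k + c.val + 2))) (j : Fin 4) :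
    (window L τ b' (newX L X i z) Y j).fin.eq = (window L τ b X Y j).fin.eq := by
  obtain ⟨-, hne, hX0, hall⟩ := col_spec d hz
  obtain ⟨hiff, hlo, -⟩ := hall j
  simp only [window_apply, child_eqf]
  by_cases h : IsZone L (xAt L X j) 4 ∧ M L ≤ yAt L Y j ∧ rowsBelow L (yAt L Y j) ≤ A - 1
  · refine (if_pos ⟨hiff.2 h.1, h.2⟩).trans ((congrArg some ?_).trans (if_pos h).symm)
    rw [seen_self hne d.Y0, seen_self hX0 d.Y0]
    refine decide_eq_decide.2 ?_
    obtain ⟨e1, e2⟩ := hlo h.1
    obtain ⟨r1, r2, -⟩ := d.rows j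
    simp only [zoneMatch, decide_eq_true_iff]
    change (∀ k < rowsBelow L (yAt L Y j), ∀ c : Fin 4,
        b' k c = (lo L (xAt L (newX L X i z) j)).testBit (4 * k + c.val + 2)) ↔
      ∀ k < rowsBelow L (yAt L Y j), ∀ c : Fin 4,
        b k c = (lo L (xAt L X j)).testBit (4 * k + c.val + 2)
    rw [e1, e2]
    exact hm _ (r1 h.2.2) r2
  · exact (if_neg fun e => h ⟨hiff.1 e.1, e.2⟩).trans (if_neg h).symm

/-- The table value of the moved window. -/
lemma newX_v {i : Fin 4} (d : EqData L X Y i) {z : ℕ} (hz : IsCode z)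
    (hv : hi L (Y % H L) < A - 1 ∨ τ z = τ (lo L (xAt L X i))) (j : Fin 4) :
    (window L τ b' (newX L X i z) Y j).fin.v = (window L τ b X Y j).fin.v := by
  obtain ⟨-, -, -, hall⟩ := col_spec d hz
  obtain ⟨hiff, hlo, c1, c2, -⟩ := hall j
  have n1 : ¬ IsZone L (xAt L (newX L X i z) j) 6 := fun h => by
    have := h.1.2.symm.trans c1.2; omega
  have n2 : ¬ IsZone L (xAt L X j) 6 := fun h => by
    have := h.1.2.symm.trans c2.2; omega
  simp only [window_apply, child_v]
  by_cases h : IsZone L (xAt L X j) 4 ∧ A - 1 ≤ hi L (yAt L Y j)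
  · refine (if_pos (Or.inl ⟨hiff.2 h.1, h.2⟩)).trans (Eq.trans ?_ (if_pos (Or.inl h)).symm)
    change τ (lo L (xAt L (newX L X i z) j)) = τ (lo L (xAt L X j))
    obtain ⟨e1, e2⟩ := hlo h.1
    rw [e1, e2]
    refine hv.resolve_left fun hlt => ?_
    have := (d.rows j).2.2
    have := d.hl
    omega
  · exact (if_neg fun e => e.elim (fun e => h ⟨hiff.1 e.1, e.2⟩) n1).trans
      (if_neg fun e => e.elim h n2).symm

/-- The numbers of the moved window. -/
lemma newX_num {i : Fin 4} (d : EqData L X Y i) {z : ℕ} (hz : IsCode z) {k : ℕ} (hk : A ≤ k)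
    (hbit : (k - A) % 8 = 0 → 2 ≤ (k - A) / 8 →
      z.testBit ((k - A) / 8) = (lo L (xAt L X i)).testBit ((k - A) / 8)) :
    quadBits L (window L τ b' (newX L X i z) Y) k = quadBits L (window L τ b X Y) k := by
  obtain ⟨-, -, -, hall⟩ := col_spec d hz
  funext j
  obtain ⟨-, -, c1, c2, -, ⟨l4, ln, lo', -⟩, -⟩ := hall j
  show enc L (window L τ b' (newX L X i z) Y j) k = enc L (window L τ b X Y j) k
  rw [window_apply, window_apply, enc, enc, if_neg (by omega), if_neg (by omega)]
  refine congrArg₂ (fun p q : Bool => p && q) rfl ?_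
  have k1 : knownX L (xAt L (newX L X i z) j) (yAt L Y j) = true :=
    knownX_of_col c1 (by norm_num)
  have k2 : knownX L (xAt L X j) (yAt L Y j) = true := knownX_of_col c2 (by norm_num)
  have ex : (child L τ (seen b' (newX L X i z) Y j) (pick L (newX L X i z) (dx j))
      (pick L Y (dy j))).x = xAt L (newX L X i z) j := (child_x ..).trans (if_pos k1)
  have ex' : (child L τ (seen b X Y j) (pick L X (dx j)) (pick L Y (dy j))).x = xAt L X j :=
    (child_x ..).trans (if_pos k2)
  rcases h : (k - A) % 8 with _ | _ | _ | _ | _ | _ | _ | n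
  · simp only [num, ex, ex']
    exact testBit_near l4 ln lo' fun h2 => hbit h h2
  · simp only [num, ex, ex', c1.2, c2.2]
  · simp only [num, ex, ex', c1.1, c2.1]
  · rfl
  · rfl
  · rfl
  · simp only [num]
    refine congrArg (fun a => Nat.testBit a _) ?_
    unfold child
    simp only
    rw [if_neg, if_neg]
    · exact fun e => by
        have := e.1.2.symm.trans c2.2
        omega
    · exact fun e => by
        have := e.1.2.symm.trans c1.2
        omega
  · rfl

/-- Claims of tiles in two columns with the same fixed bits. -/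
lemma claims_near {t t' : St} (hy : t'.y = t.y) (hk : t'.xk = t.xk) (hu : t'.u = t.u)
    (hm : mid L t'.x = mid L t.x) (hh : hi L t'.x = hi L t.x)
    (h4 : lo L t'.x % 4 = lo L t.x % 4)
    (hb : 1 ≤ lo L t.x ∧ lo L t.x + 1 < M L ∧ 1 ≤ lo L t'.x ∧ lo L t'.x + 1 < M L ∧
      2 * A < lo L t.x ∧ 2 * A < lo L t'.x)
    (hz : (lo L t'.x % 4 = 2 ∧ 2 ^ (B - 1) ≤ lo L t'.x ∧ lo L t'.x < 2 ^ B) ↔
      (lo L t.x % 4 = 2 ∧ 2 ^ (B - 1) ≤ lo L t.x ∧ lo L t.x < 2 ^ B))
    (hlt : hi L t.y < A)
    (hq : ∀ c : Fin 4, (lo L t'.x).testBit (4 * hi L t.y + c.val + 2) =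
      (lo L t.x).testBit (4 * hi L t.y + c.val + 2)) :
    claims L t' = claims L t := by
  have hYB : A < YB := by unfold YB; omega
  have e : min (hi L t.y) YB = hi L t.y := by omega
  obtain ⟨xk, x, y, u, f⟩ := t
  obtain ⟨xk', x', y', u', f'⟩ := t'
  simp only at *
  subst hy hk hu
  simp only [claims, Claims.mk.injEq, XClaims.mk.injEq, MixClaims.mk.injEq, hm, hh]
  refine ⟨trivial, ⟨?_, ?_, ?_, ?_, trivial, trivial⟩, trivial, ?_, ?_, ?_, trivial, trivial⟩
  · exact decide_eq_decide.2 (by omega)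
  · exact decide_eq_decide.2 (by omega)
  · exact decide_eq_decide.2 (by omega)
  · exact decide_eq_decide.2 hz
  · exact decide_eq_decide.2 (by omega)
  · funext c
    rw [e, hq c]
  · simp [show ¬ A ≤ hi L y' by omega]

/-- The finite data of the moved window. -/
lemma newX_sig {i : Fin 4} (d : EqData L X Y i) {z : ℕ} (hz : IsCode z)
    (hm : ∀ n, n ≤ nRows L Y → hi L (Y % H L) ≤ n →
      ((∀ k < n, ∀ c : Fin 4, b' k c = z.testBit (4 * k + c.val + 2)) ↔
        ∀ k < n, ∀ c : Fin 4, b k c = (lo L (xAt L X i)).testBit (4 * k + c.val + 2)))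
    (hv : hi L (Y % H L) < A - 1 ∨ τ z = τ (lo L (xAt L X i)))
    (hh : IsLive L (Y % H L) ∨ IsLive L (Y % H L - 1) →
      b' (hi L (Y % H L - 1)) = b (hi L (Y % H L - 1)))
    (hq : ∀ c : Fin 4, z.testBit (4 * hi L (Y % H L - 1) + c.val + 2) =
      (lo L (xAt L X i)).testBit (4 * hi L (Y % H L - 1) + c.val + 2))
    (hq' : ∀ c : Fin 4, nRows L Y ≤ hi L (Y % H L) →
      z.testBit (4 * hi L (Y % H L) + c.val + 2) =
      (lo L (xAt L X i)).testBit (4 * hi L (Y % H L) + c.val + 2)) (j : Fin 4) :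
    sig L (window L τ b' (newX L X i z) Y) j = sig L (window L τ b X Y) j := by
  obtain ⟨-, hne, hX0, hall⟩ := col_spec d hz
  obtain ⟨hiff, hlo, c1, c2, hhalf,
    ⟨l4, ln, lo', b1, b2, b1', b2', big, big'⟩, x0, xcut, x0', xcut'⟩ := hall j
  have hcases := d.rows j
  have hA : A = 1024 := rfl
  have hYB : A < YB := by unfold YB; omega
  have hu := d.hu
  have hl := d.hl
  have k1 : knownX L (xAt L (newX L X i z) j) (yAt L Y j) = true :=
    knownX_of_col c1 (by norm_num)
  have k2 : knownX L (xAt L X j) (yAt L Y j) = true := knownX_of_col c2 (by norm_num)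
  have ncol : ∀ m, m ≠ 4 → ¬ IsCol L (xAt L (newX L X i z) j) m := fun m hm h =>
    hm (h.2.symm.trans c1.2)
  have ncol' : ∀ m, m ≠ 4 → ¬ IsCol L (xAt L X j) m := fun m hm h => hm (h.2.symm.trans c2.2)
  have hk : min (hi L (yAt L Y j)) YB = hi L (yAt L Y j) := by omega
  have hsmall : hi L (yAt L Y j) < A := by omega
  refine Prod.ext ?_ ?_
  · show (window L τ b' (newX L X i z) Y j).fin = (window L τ b X Y j).fin
    have e_v := newX_v (b := b) (b' := b') d hz hv j
    have e_eq := newX_eq (τ := τ) d hz hm j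
    simp only [window_apply] at e_v e_eq ⊢
    rw [seen_self hne d.Y0, seen_self hX0 d.Y0] at e_v e_eq ⊢
    unfold child at e_v e_eq ⊢
    simp only at e_v e_eq ⊢
    simp only [Fin'.mk.injEq]
    have n1 := ncol 1 (by norm_num); have n1' := ncol' 1 (by norm_num)
    have n2 := ncol 2 (by norm_num); have n2' := ncol' 2 (by norm_num)
    have n3 := ncol 3 (by norm_num); have n3' := ncol' 3 (by norm_num)
    have n6 := ncol 6 (by norm_num); have n6' := ncol' 6 (by norm_num)
    have n7 := ncol 7 (by norm_num); have n7' := ncol' 7 (by norm_num)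
    have nb : ¬ IsBundle L (xAt L (newX L X i z) j) := fun h => n1 h.1
    have nb' : ¬ IsBundle L (xAt L X j) := fun h => n1' h.1
    have nz : ¬ IsZone L (xAt L (newX L X i z) j) 6 := fun h => n6 h.1
    have nz' : ¬ IsZone L (xAt L X j) 6 := fun h => n6' h.1
    have ncut : ¬ cutX L < xAt L (newX L X i z) j := by omega
    have ncut' : ¬ cutX L < xAt L X j := by omega
    simp only [xAt, yAt] at n2 n2' n3 n3' n7 n7' nb nb' nz nz' x0 x0' ncut ncut' hsmall hk
    refine ⟨?_, ?_, ?_, ?_, ?_, e_eq, e_v, ?_, trivial⟩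
    · simp only [x0, x0', n7, n7', false_and, false_or, decide_eq_decide.2 hhalf]
    · simp only [n2, n2', false_and, false_or]
    · funext c
      simp only [x0, x0', ncut, ncut', false_implies, implies_true, and_true]
      split_ifs with hlive
      · have hlive' : IsLive L (yAt L Y j) := hlive
        have e : hi L (yAt L Y j) = hi L (Y % H L - 1) := by
          rcases hcases.2.2 with e | ⟨e, -⟩
          · exact e
          · rcases d.yCases j with e' | e'
            · rw [e'] at hlive' ⊢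
              exact ((wire_near d.hL hlive'.1 (y' := Y % H L - 1)
                (Or.inr (Or.inl (by have := d.top; omega)))).1).symm
            · rw [e']
        show b' (hi L (yAt L Y j)) c = b (hi L (yAt L Y j)) c
        rw [e]
        refine congrFun (hh ?_) c
        rcases d.yCases j with e' | e'
        · exact Or.inl (e' ▸ hlive')
        · exact Or.inr (e' ▸ hlive')
      · rfl
    · funext c
      simp only [nb, nb', false_and, if_false]
    · simp only [n3, n3', false_and, if_false]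
    · simp only [nz, nz', false_and, if_false]
  · show claims L (window L τ b' (newX L X i z) Y j) = claims L (window L τ b X Y j)
    rw [window_apply, window_apply]
    have ex : (child L τ (seen b' (newX L X i z) Y j) (pick L (newX L X i z) (dx j))
        (pick L Y (dy j))).x = xAt L (newX L X i z) j := (child_x ..).trans (if_pos k1)
    have ex' : (child L τ (seen b X Y j) (pick L X (dx j)) (pick L Y (dy j))).x = xAt L X j :=
      (child_x ..).trans (if_pos k2)
    have ek : (child L τ (seen b' (newX L X i z) Y j) (pick L (newX L X i z) (dx j))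
        (pick L Y (dy j))).xk = true := k1
    have ek' : (child L τ (seen b X Y j) (pick L X (dx j)) (pick L Y (dy j))).xk = true := k2
    have eu : ∀ (b₀ : ℕ → Quad) (X₀ : ℕ), ¬ IsCol L (xAt L X₀ j) 3 →
        (child L τ b₀ (pick L X₀ (dx j)) (pick L Y (dy j))).u = 0 := fun b₀ X₀ h => by
      unfold child
      exact if_neg fun e => h e.1
    refine claims_near rfl (ek.trans ek'.symm) ((eu _ _ (ncol 3 (by norm_num))).trans
      (eu _ _ (ncol' 3 (by norm_num))).symm) ?_ ?_ ?_ ?_ ?_ hsmall ?_ <;> simp only [ex, ex']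
    · rw [c1.2, c2.2]
    · rw [c1.1, c2.1]
    · exact l4
    · exact ⟨b1, b2, b1', b2', big, big'⟩
    · exact ⟨fun h => (hiff.1 ⟨c1, h⟩).2, fun h => (hiff.2 ⟨c2, h⟩).2⟩
    · intro c
      refine testBit_near l4 ln lo' fun _ => ?_
      change z.testBit (4 * hi L (yAt L Y j) + _ + 2) =
        (lo L (xAt L X i)).testBit (4 * hi L (yAt L Y j) + _ + 2)
      rcases hcases.2.2 with e | ⟨e, e'⟩ <;> rw [e]
      · exact hq c
      · exact hq' c e'

end Vale.Agent.P196.Tile.Minimal
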