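import Vale.Agent.P196.Tile.Minimal.Main
import Vale.Agent.P196.Tile.Desub.Final

/-!
P196, module D: minimality, and the tiling statement from rigidity alone.
-/

namespace Vale.Agent.P196.Tile

/-- The hierarchy of tile states is primitive. -/
theorem primitiveHier : hier.Primitive := Minimal.primitive desubStatement

/-- The tiling statement from rigidity of the tile system. -/
theorem tiling_of_rigid (hR : hier.sft.Rigid) : TilingStatement :=
  tiling_of_minimal_rigid primitiveHier hR

end Vale.Agent.P196.Tile
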