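import Vale.Agent.P196.Tile.Minimal.Dep
import Vale.Agent.P196.Tile.Instance
import Vale.Agent.P196.Tile.Complete

/-!
P196, module D, minimality: quads below an arbitrary quad of a higher level, parents of real quads,
and two windows occurring below every quad.
-/

namespace Vale.Agent.P196.Tile.Minimal

open ChildRules

/-- `w` is a window of children of the quad `S` of the next level. -/
def IsChild (L : ℕ) (S w : Quad4 St) : Prop :=
  ∃ X Y, X < side L ∧ Y < side L ∧ window L table (quadBits (L + 1) S) X Y = w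

/-- `w` occurs `d` levels below `T`. -/
def Gen : ℕ → ℕ → Quad4 St → Quad4 St → Prop
  | _, 0, T, w => T = w
  | L, d + 1, T, w => ∃ S, Gen (L + 1) d T S ∧ IsChild L S w

/-- `w` occurs below every quad of some higher level. -/
def Occ (L : ℕ) (w : Quad4 St) : Prop := ∃ d, ∀ T, Gen L d T w

/-- Below every quad of some higher level there is one showing the bits of `R` on the rows `P`. -/
def Rep (L : ℕ) (R : Quad4 St) (P : ℕ → Prop) : Prop :=
  ∃ d, ∀ T, ∃ R', Gen L d T R' ∧ Agree L R R' P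

variable {L : ℕ} {R S w : Quad4 St} {P Q : ℕ → Prop}

lemma rep_none (L : ℕ) (R : Quad4 St) : Rep L R fun _ => False :=
  ⟨0, fun T => ⟨T, rfl, fun _ h => h.elim⟩⟩

lemma Rep.mono (h : Rep L R P) (hPQ : ∀ k, Q k → P k) : Rep L R Q :=
  h.imp fun _ hd T => (hd T).imp fun _ hR => ⟨hR.1, fun k hk => hR.2 k (hPQ k hk)⟩

lemma Rep.step (h : Rep (L + 1) S P)
    (hc : ∀ S', Agree (L + 1) S S' P → ∃ X Y, X < side L ∧ Y < side L ∧
      Agree L R (window L table (quadBits (L + 1) S') X Y) Q) : Rep L R Q := by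
  obtain ⟨d, hd⟩ := h
  refine ⟨d + 1, fun T => ?_⟩
  obtain ⟨S', hg, ha⟩ := hd T
  obtain ⟨X, Y, hX, hY, hw⟩ := hc S' ha
  exact ⟨_, ⟨S', hg, X, Y, hX, hY, rfl⟩, hw⟩

lemma Rep.occ (h : Rep (L + 1) S P)
    (hc : ∀ S', Agree (L + 1) S S' P → IsChild L S' w) : Occ L w := by
  obtain ⟨d, hd⟩ := h
  refine ⟨d + 1, fun T => ?_⟩
  obtain ⟨S', hg, ha⟩ := hd T
  exact ⟨S', hg, hc S' ha⟩

lemma Occ.child (h : Occ (L + 1) S) (hc : IsChild L S w) : Occ L w := by
  obtain ⟨d, hd⟩ := h
  exact ⟨d + 1, fun T => ⟨S, hd T, hc⟩⟩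

/-! ### Real quads -/

/-- A quad of a valid tiling. -/
def Real (L : ℕ) (S : Quad4 St) : Prop :=
  L₀ ≤ L ∧ ∃ c, ValidTiling L c ∧ ∃ P, quadAt c P = S

lemma Real.le (h : Real L S) : L₀ ≤ L := h.1

lemma Real.valid (h : Real L S) : Valid L S := by
  obtain ⟨-, c, hc, P, rfl⟩ := h
  exact (validTiling_iff _ _).1 hc P

lemma Real.parent (hD : DesubStatement) (h : Real L w) :
    ∃ R X Y, Real (L + 1) R ∧ X < side L ∧ Y < side L ∧
      window L table (quadBits (L + 1) R) X Y = w := by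
  obtain ⟨hL, c, hc, P, rfl⟩ := h
  obtain ⟨⟨o, c'⟩, ⟨-, hp, he⟩, -⟩ := hD L hL c hc
  rw [expandTile_place] at he
  have hs : (0 : ℤ) < side L := by exact_mod_cast side_pos' L
  set t : V := P - o - (1, 1) with ht
  have x0 := Int.emod_nonneg t.1 hs.ne'
  have y0 := Int.emod_nonneg t.2 hs.ne'
  have x1 := Int.emod_lt_of_pos t.1 hs
  have y1 := Int.emod_lt_of_pos t.2 hs
  refine ⟨quadAt c' (t.1 / side L, t.2 / side L), ((t.1 % (side L : ℤ)).toNat + 1) % side L,
    ((t.2 % (side L : ℤ)).toNat + 1) % side L, ⟨by omega, c', hp, _, rfl⟩, Nat.mod_lt _ (side_pos' L),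
    Nat.mod_lt _ (side_pos' L), funext fun j => ?_⟩
  rw [window_child _ _ _ _ _ (Nat.mod_lt _ (side_pos' L)) (Nat.mod_lt _ (side_pos' L)),
    pred'_succ_mod (by omega), pred'_succ_mod (by omega), ← he, quadAt]
  congr 1
  have e1 := Int.emod_add_mul_ediv t.1 (side L)
  have e2 := Int.emod_add_mul_ediv t.2 (side L)
  ext <;> simp only [ht, Prod.fst_add, Prod.snd_add, Prod.fst_sub, Prod.snd_sub,
    Int.toNat_of_nonneg x0, Int.toNat_of_nonneg y0] at * <;> omega

/-- The position of a real quad is kept over an arbitrary parent: rows of position data agree. -/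
lemma rep_pos (hD : DesubStatement) (h : Real L R) :
    Rep L R fun k => k = 0 ∨ k = 9 ∨ AF ≤ k := by
  obtain ⟨S, X, Y, -, hX, hY, rfl⟩ := h.parent hD
  exact (rep_none (L + 1) S).step fun S' _ => ⟨X, Y, hX, hY, fun k hk => window_pos table hk⟩

/-- Two levels of kept positions: all rows which are not soft agree. -/
lemma rep_nonSoft (hD : DesubStatement) (h : Real L R) : Rep L R fun k => ¬ Soft R k := by
  obtain ⟨S, X, Y, hS, hX, hY, rfl⟩ := h.parent hD
  refine (rep_pos hD hS).step fun S' ha => ⟨X, Y, hX, hY, agree_nonSoft table fun m hm => ?_⟩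
  refine (ha m ?_).symm
  rcases restVis_rows hm with h | h
  · exact Or.inl h
  · exact Or.inr (Or.inr h)

/-! ### Two quiet windows -/

/-- No column of the window scans, compares or looks up, and no row is a wire. -/
def Quiet (L X Y : ℕ) : Prop :=
  ∀ j, ¬ IsCol L (xAt L X j) 3 ∧ ¬ IsWire L (yAt L Y j) ∧
    ¬ (IsZone L (xAt L X j) 4 ∧ M L ≤ yAt L Y j ∧ rowsBelow L (yAt L Y j) ≤ A - 1) ∧
    ¬ (IsZone L (xAt L X j) 6 ∧ M L ≤ yAt L Y j ∧ rowsBelow L (yAt L Y j) ≤ xlRow (B - 1))

lemma inS_quiet {X Y : ℕ} (hL : L₀ ≤ L) (hX : X < side L) (hY : Y < side L) (hq : Quiet L X Y)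
    (τ : ℕ → Bool) (b : ℕ → Quad) : InS (sig L (window L τ b X Y)) := by
  refine ⟨⟨L, τ, b, X, Y, hL, hX, hY, rfl⟩, ?_, ?_, fun j => ?_⟩
  · refine ⟨fun c hc => ?_, fun hw => ?_, fun l m hw => ?_⟩
    · have : (child L τ (seen b X Y 2) (pick L X (dx 2)) (pick L Y (dy 2))).fin.carry = some c := hc
      rw [child_carry, if_neg fun h => (hq 2).1 h.1] at this
      exact absurd this (Option.some_ne_none c).symm
    all_goals exact absurd ((claims_wire L τ (seen b X Y 2) _ _).1 hw) (hq 2).2.1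
  · refine ⟨fun c hc => ?_, fun hw => ?_, fun l m hw => ?_⟩
    · have : (child L τ (seen b X Y 3) (pick L X (dx 3)) (pick L Y (dy 3))).fin.carry = some c := hc
      rw [child_carry, if_neg fun h => (hq 3).1 h.1] at this
      exact absurd this (Option.some_ne_none c).symm
    all_goals exact absurd ((claims_wire L τ (seen b X Y 3) _ _).1 hw) (hq 3).2.1
  · exact ⟨fun hw => absurd ((claims_wire L τ (seen b X Y j) _ _).1 hw) (hq j).2.1,
      fun hw => absurd ((claims_wire L τ (seen b X Y j) _ _).1 hw) (hq j).2.1⟩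

lemma not_eqWin_quiet {X Y : ℕ} (hq : Quiet L X Y) (τ : ℕ → Bool) (b : ℕ → Quad) :
    ¬ EqWin (window L τ b X Y) := by
  rintro ⟨j, hj⟩
  refine hj ?_
  rw [window_apply, child_eqf, if_neg fun h => (hq j).2.2.1 ⟨h.1, h.2.1, h.2.2⟩]

/-- The middle row. -/
lemma middle (hL : L₀ ≤ L) : H L / 2 < side L ∧ H L / 2 ≠ 0 ∧ ∀ j,
    ¬ IsWire L (yAt L (H L / 2) j) ∧ 1 ≤ hi L (yAt L (H L / 2) j) ∧
      xlRow (B - 1) < rowsBelow L (yAt L (H L / 2) j) ∧ A ≤ hi L (yAt L (H L / 2) j) := by
  have hM := eight_lt_M hL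
  have hb := lastK_bound hL
  have hs : side L = 2 * H L := rfl
  obtain ⟨h, hh⟩ := M_even hL
  have hsq : 0 < M L ^ 2 := pow_pos (M_pos L) 2
  have e : H L / 2 = M L ^ 2 * h := by
    rw [H_split, show M L ^ 2 * M L = M L ^ 2 * h * 2 by rw [mul_assoc, mul_comm h 2, ← hh],
      Nat.mul_div_cancel _ (by norm_num)]
  have hH : H L = M L ^ 2 * h + M L ^ 2 * h := by rw [H_split, hh]; ring
  have hpos : 0 < M L ^ 2 * h := Nat.mul_pos hsq (by omega)
  refine ⟨by omega, by omega, fun j => ?_⟩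
  have hyd : yAt L (H L / 2) j = M L ^ 2 * h ∨ yAt L (H L / 2) j + 1 = M L ^ 2 * h := by
    unfold yAt
    cases dy j
    · exact Or.inl (by simp only [pick, Bool.false_eq_true, if_false]; rw [Nat.mod_eq_of_lt] <;> omega)
    · right
      rw [pick_true (by omega) (by omega), Nat.mod_eq_of_lt (by omega)]
      omega
  set y := yAt L (H L / 2) j
  have h2 : M L ^ 2 * (h - 1) + M L ^ 2 = M L ^ 2 * h := by
    rw [← Nat.mul_succ, show (h - 1).succ = h by omega]
  have hlow : h - 1 ≤ hi L y := by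
    unfold hi
    rw [Nat.le_div_iff_mul_le hsq, Nat.mul_comm]
    omega
  have hlo : lo L y = 0 → mid L y = 1 → False := fun h0 h1 => by
    have hc := coord_eq L y
    rw [h0, h1, mul_one, add_zero] at hc
    have hlt : M L + 1 < M L ^ 2 := by
      have := Nat.mul_le_mul_right (M L) (show 2 ≤ M L by omega)
      rw [← sq] at this
      omega
    rcases Nat.lt_or_ge (hi L y) h with h3 | h3
    · have := Nat.mul_le_mul_left (M L ^ 2) (show hi L y + 1 ≤ h from h3)
      rw [mul_add, mul_one] at this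
      omega
    · have := Nat.mul_le_mul_left (M L ^ 2) h3
      omega
  have hw : ¬ IsWire L y := fun hw => hlo hw.1 hw.2
  have hMy : M L ≤ y := by
    have := M_le_sq L
    have h3 : M L ^ 2 * 2 ≤ M L ^ 2 * h := Nat.mul_le_mul_left _ (by omega)
    omega
  have hrow : h - 2 ≤ rowIdx L y := by
    unfold rowIdx
    rw [Nat.le_div_iff_mul_le hsq, Nat.mul_comm]
    have h4 : M L ^ 2 * (h - 2) + M L ^ 2 * 2 = M L ^ 2 * h := by
      rw [← Nat.mul_add, show h - 2 + 2 = h by omega]
    have := M_le_sq L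
    omega
  have hA : A = 1024 := rfl
  have hl : lastK L = A + 8 * L + 7 := rfl
  have h50 : 50000 ≤ L := le_L₀.trans hL
  refine ⟨hw, by omega, ?_, by omega⟩
  rw [rowsBelow, if_neg (by omega), if_neg hw]
  unfold xlRow B at *
  omega

/-- Below every quad there is a window with no data at all. -/
lemma exists_blank (hL : L₀ ≤ L) : ∃ X Y, X < side L ∧ Y < side L ∧ Quiet L X Y ∧
    ∀ τ b k, (k = 0 ∨ k = 9 ∨ k = 10) →
      quadBits L (window L τ b X Y) k = fun _ => false := by
  obtain ⟨hlt, hne, hmid⟩ := middle hL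
  have hx : ∀ j m, ¬ IsCol L (xAt L (H L / 2) j) m := fun j m h => by
    have := (hmid j).2.1
    have hxy : xAt L (H L / 2) j = yAt L (H L / 2) (if dx j then 2 else 0) := by
      cases hdx : dx j <;> simp [xAt, yAt, dy, hdx]
    rw [hxy] at h
    have := h.1
    have := (hmid (if dx j then 2 else 0)).2.1
    omega
  have hq : Quiet L (H L / 2) (H L / 2) := fun j =>
    ⟨hx j 3, (hmid j).1, fun h => hx j 4 h.1.1, fun h => hx j 6 h.1.1⟩
  refine ⟨_, _, hlt, hlt, hq, fun τ b k hk => funext fun j => ?_⟩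
  rcases hk with rfl | rfl | rfl
  · show (window L τ b _ _ j).fin.v = false
    rw [window_apply, child_v, if_neg]
    rintro (⟨h, -⟩ | h)
    · exact hx j 4 h.1
    · exact hx j 6 h.1
  · show (window L τ b _ _ j).fin.eq.isSome = false
    rw [window_apply, child_eqf, if_neg fun h => hx j 4 h.1.1]
    rfl
  · exact congrFun (ten_of_not_eqWin (not_eqWin_quiet hq τ b)) j

/-- An accepted signature with a table value. -/
lemma exists_marked (hL : L₀ ≤ L) : ∃ s, InS s ∧ finBits (s 0) 0 = true := by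
  obtain ⟨hlt, hne, hmid⟩ := middle hL
  have hM := eight_lt_M hL
  have h50 : 50000 ≤ L := le_L₀.trans hL
  have hz : 2 ^ (B - 1) + 2 + 1 < M L := by
    have h1 : 2 ^ B ≤ 2 ^ L := Nat.pow_le_pow_right (by norm_num) (by unfold B A; omega)
    have h2 : 2 ^ B = 2 * 2 ^ (B - 1) := by
      rw [← pow_succ', show B - 1 + 1 = B by unfold B; omega]
    have h3 : 8 ≤ 2 ^ (B - 1) := le_trans (by norm_num : 8 ≤ 2 ^ 3)
      (Nat.pow_le_pow_right (by norm_num) (by unfold B A; omega))
    show _ < 2 ^ L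
    omega
  obtain ⟨hc, hlo, hxH, -⟩ := band_col (L := L) (m := 6) (by norm_num) (by omega)
    (show 2 ^ (B - 1) + 2 < M L by omega)
  set x := M L * 6 + (2 ^ (B - 1) + 2)
  have hX : x < side L := by have : side L = 2 * H L := rfl; omega
  have hzone : IsZone L x 6 := by
    refine ⟨hc, ?_, ?_, ?_⟩ <;> rw [hlo]
    · have : 4 ∣ 2 ^ (B - 1) := Nat.pow_dvd_pow 2 (show 2 ≤ B - 1 by unfold B A; omega)
      omega
    · omega
    · have h2 : 2 ^ B = 2 * 2 ^ (B - 1) := by
        rw [← pow_succ', show B - 1 + 1 = B by unfold B; omega]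
      have h3 : 8 ≤ 2 ^ (B - 1) := le_trans (by norm_num : 8 ≤ 2 ^ 3)
        (Nat.pow_le_pow_right (by norm_num) (by unfold B A; omega))
      omega
  have x0 : xAt L x 0 = x := Nat.mod_eq_of_lt (show x < H L by omega)
  have hq : Quiet L x (H L / 2) := by
    intro j
    refine ⟨fun h => ?_, (hmid j).1, fun h => ?_, fun h => absurd h.2.2 (not_le.2 (hmid j).2.2.1)⟩
    · rcases Nat.eq_zero_or_pos (lo L (xAt L x j) % 2) with he | he
      · exact absurd (special_unique hL hX ⟨h, he⟩ (i := j) (j := 0)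
          (by rw [x0]; exact ⟨hc, by rw [hlo]; have := hzone.2.1; rw [hlo] at this; omega⟩)).2
          (by norm_num)
      · have hb := near hX (b := dx 0) (x := x) x0 (by omega) (by omega) (dx j)
        have hd : dx 0 = false := rfl
        rw [hd] at hb
        have e : M L * 6 = M L * 5 + M L := by ring
        obtain ⟨h3, -, -, h3b⟩ := band_col (L := L) (m := 3) (by norm_num) (by omega)
          (Nat.mod_lt (xAt L x j) (M_pos L))
        have := col_eq h
        change xAt L x j + _ = _ at hb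
        have : M L * 4 ≤ M L * 5 := by omega
        cases hdx : dx j <;> simp [hdx] at hb <;> simp only [lo] at * <;> omega
    · exact absurd (special_unique hL hX ⟨h.1.1, by have := h.1.2.1; omega⟩ (j := 0)
        (by rw [x0]; exact ⟨hc, by rw [hlo]; have := hzone.2.1; rw [hlo] at this; omega⟩)).2
        (by norm_num)
  refine ⟨sig L (window L (fun _ => true) (fun _ _ => false) x (H L / 2)),
    inS_quiet hL hX hlt hq _ _, ?_⟩
  rw [finBits, if_pos rfl]
  show (window L (fun _ => true) (fun _ _ => false) x (H L / 2) 0).fin.v = true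
  rw [window_apply, child_v, if_pos]
  exact Or.inr (show IsZone L (xAt L x 0) 6 from x0.symm ▸ hzone)

end Vale.Agent.P196.Tile.Minimal
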