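import Vale.Agent.P196.Tile.Minimal.Occurs

/-!
P196, module D, minimality: the hierarchy of tile states is primitive.
-/

namespace Vale.Agent.P196.Tile.Minimal

open ChildRules Hier

/-! ### Tiles below a quad -/

/-- The tiles `d` levels below the tiles `c`, states starting at their lower left tile. -/
noncomputable def tilesBelow : ℕ → ℕ → (V → St) → V → St
  | _, 0, c => c
  | L, d + 1, c => fun t => expandTile L (tilesBelow (L + 1) d c) (t + (1, 1))

/-- The side of a tile `d` levels up. -/
def span : ℕ → ℕ → ℕ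
  | _, 0 => 1
  | L, d + 1 => side L * span (L + 1) d

lemma tilesBelow_top : ∀ (d L : ℕ) (c : V → St),
    tilesBelow L (d + 1) c = tilesBelow L d fun t => expandTile (L + d) c (t + (1, 1))
  | 0, _, _ => rfl
  | d + 1, L, c => by
    show (fun t => expandTile L (tilesBelow (L + 1) (d + 1) c) (t + (1, 1))) = _
    rw [tilesBelow_top d (L + 1) c, show L + 1 + d = L + (d + 1) by omega]
    rfl

lemma span_pos : ∀ (d L : ℕ), 0 < span L d
  | 0, _ => Nat.one_pos
  | d + 1, L => Nat.mul_pos (side_pos' L) (span_pos d (L + 1))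

lemma span_top : ∀ (d L : ℕ), span L (d + 1) = side (L + d) * span L d
  | 0, _ => rfl
  | d + 1, L => by
    show side L * span (L + 1) (d + 1) = side (L + (d + 1)) * (side L * span (L + 1) d)
    rw [span_top d (L + 1), show L + 1 + d = L + (d + 1) by omega]
    ring

/-- A quad occurring below `T` is a quad of the tiles below any copy of `T`. -/
lemma find_gen : ∀ (d L : ℕ) (T S : Quad4 St), Gen L d T S → ∀ (c : V → St) (P : V),
    quadAt c P = T → ∃ u : V, vdiv u (span L d) = P ∧ quadAt (tilesBelow L d c) u = S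
  | 0, L, T, S, h, c, P, hP => ⟨P, by simp [vdiv, span], hP.trans h⟩
  | d + 1, L, T, S, ⟨S₁, hg, X, Y, hX, hY, hw⟩, c, P, hP => by
    obtain ⟨u, hu, hq⟩ := find_gen d (L + 1) T S₁ hg c P hP
    have hs : (0 : ℤ) < side L := by exact_mod_cast side_pos' L
    refine ⟨((((pred' L X : ℕ) : ℤ), ((pred' L Y : ℕ) : ℤ)) : V) + (side L : ℤ) • u, ?_,
      funext fun j => ?_⟩
    · rw [← hu, span, Nat.cast_mul, ← vdiv_vdiv hs.le, vdiv_add_smul hs]
      congr 1
      have h1 : pred' L X < side L := pred'_lt L X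
      have h2 : pred' L Y < side L := pred'_lt L Y
      have e : vdiv ((((pred' L X : ℕ) : ℤ), ((pred' L Y : ℕ) : ℤ)) : V) (side L : ℤ) = 0 :=
        Prod.ext (Int.ediv_eq_zero_of_lt (by omega) (by simp only; omega))
          (Int.ediv_eq_zero_of_lt (by omega) (by simp only; omega))
      rw [e, zero_add]
    · rw [← hw, ← hq, window_child _ _ _ _ _ hX hY]
      show expandTile L _ (_ - dir j + (1, 1)) = _
      congr 1
      ext <;> simp <;> ring

/-- The states in a tower read the tiles below its top. -/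
lemma deepConfig_tiles (k : ℕ) : ∀ (d : ℕ) (y : V → State (k + d)) (c : V → St) (u : V),
    (y (vdiv u ((hier.above k).Q d))).1 = quadAt c (vdiv u ((hier.above k).Q d)) →
      ((hier.above k).deepConfig d y 0 u).1 = quadAt (tilesBelow (L₀ + k) d c) u
  | 0, y, c, u, h => by
    rw [deepConfig_zero]
    simpa [vdiv, Hier.Q, tilesBelow] using h
  | d + 1, y, c, u, h => by
    have hs : (hier.above k).deepConfig (d + 1) y 0 =
        (hier.above k).deepConfig d ((hier.above k).expand d y 0) 0 := by
      rw [← deepConfig_succ, smul_zero, add_zero]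
    rw [hs, tilesBelow_top]
    refine deepConfig_tiles k d _ _ u ?_
    have e : vdiv (vdiv u ((hier.above k).Q d)) (side (L₀ + (k + d))) =
        vdiv u ((hier.above k).Q (d + 1)) := by
      rw [vdiv_vdiv (Q_pos' (H := hier.above k) d).le, ← Hier.Q_succ']
    refine (expand_tile (k + d) y c 0 _ ?_).trans ?_
    · rw [add_zero, e]
      exact h
    · funext j
      simp only [quadAt, add_zero, ← Nat.add_assoc]
      congr 1
      abel

lemma span_eq (k : ℕ) : ∀ d, (hier.above k).Q d = span (L₀ + k) d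
  | 0 => rfl
  | d + 1 => by
    show side (L₀ + (k + d)) * (hier.above k).Q d = _
    rw [span_eq k d, span_top, Nat.add_assoc]

lemma deep_tiles (k d : ℕ) (s : State (k + d)) (c : V → St) (hc : quadAt c 0 = s.1) (u : V)
    (hu : InRange ((hier.above k).Q d) u) :
    ((hier.above k).deep d s u).1 = quadAt (tilesBelow (L₀ + k) d c) u := by
  have := deepConfig_tiles k d (fun _ => s) c u (by rw [hu.vdiv_eq]; exact hc.symm)
  simpa [deepConfig, hu.vmod_eq] using this

/-! ### The tiles around a quad of parents -/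

/-- Children far from a parent only show that parent's own bits. -/
lemma child_far {L : ℕ} (hL : L₀ ≤ L) (τ : ℕ → Bool) {b b' : ℕ → Quad} {X Y : ℕ} (hX : X < side L)
    (hY : Y < side L) (fx fy : Bool) (hfx : fx = true → side L ≤ X + 2)
    (hfy : fy = true → side L ≤ Y + 2)
    (h : ∀ k (j : Fin 4), (fx = true → j = 0 ∨ j = 2) → (fy = true → j = 0 ∨ j = 1) →
      b k j = b' k j) :
    child L τ b X Y = child L τ b' X Y := by
  have hM := eight_lt_M hL
  have hs : side L = 2 * H L := rfl
  have hH := H_split L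
  have hsq : 0 < M L ^ 2 := pow_pos (M_pos L) 2
  have hlt : M L + 2 < M L ^ 2 := by
    have := Nat.mul_le_mul_right (M L) (show 3 ≤ M L by omega)
    rw [← sq] at this
    omega
  have h8 : M L ^ 2 * 8 ≤ M L ^ 2 * M L := Nat.mul_le_mul_left _ (by omega)
  have far : ∀ Z, Z < side L → side L ≤ Z + 2 →
      H L ≤ Z ∧ Z % H L = Z - H L ∧ M L - 2 ≤ hi L (Z - H L) ∧ M L - 3 ≤ rowIdx L (Z - H L) ∧
      M L ≤ Z - H L := by
    intro Z hZ hZ2
    refine ⟨by omega, ?_, ?_, ?_, by omega⟩
    · rw [Nat.mod_eq_sub_mod (by omega), Nat.mod_eq_of_lt (by omega)]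
    · unfold hi
      rw [Nat.le_div_iff_mul_le hsq, Nat.sub_mul, Nat.mul_comm (M L)]
      omega
    · unfold rowIdx
      rw [Nat.le_div_iff_mul_le hsq, Nat.sub_mul, Nat.mul_comm (M L)]
      omega
  cases hfx' : fx with
  | false =>
    cases hfy' : fy with
    | false =>
      have e : b = b' := funext fun k => funext fun j => h k j (by simp [hfx']) (by simp [hfy'])
      rw [e]
    | true =>
      have hY2 := hfy hfy'
      obtain ⟨hq, hy, f1, f2, f3⟩ := far Y hY hY2
      have hb := lastK_bound hL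
      have e0 : Y - H L ≠ 0 := by omega
      have hhalf : halfY L < Y - H L := by
        obtain ⟨-, -, -, -, h1⟩ := wire_at hL (k := 0) (Nat.zero_le _)
        have hh : halfY L = M L ^ 2 * (M L / 2) + 2 * M L := by unfold halfY; ring
        have h2 : M L ^ 2 * (M L / 2 + 4) ≤ M L ^ 2 * M L := Nat.mul_le_mul_left _ (by omega)
        rw [mul_add] at h2
        omega
      unfold child
      rw [hy]
      simp only [St.mk.injEq, Fin'.mk.injEq, true_and, and_true]
      refine ⟨?_, ?_, ?_, ?_, ?_⟩
      · funext j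
        rw [if_neg, if_neg] <;> (rintro ⟨-, e, -⟩; omega)
      · funext j
        split_ifs with hc
        · exact h _ _ (by simp [hfx']) fun _ => hc.2.2.2 (decide_eq_true hq) hhalf
        · rfl
      · rw [if_neg, if_neg] <;> (rintro ⟨-, -, -, -, e⟩; omega)
      · have : A - 1 < rowsBelow L (Y - H L) := by
          have hA : lastK L = A + 8 * L + 7 := rfl
          unfold rowsBelow
          split_ifs <;> omega
        rw [if_neg, if_neg] <;> (rintro ⟨-, -, e⟩; omega)
      · have : xlRow (B - 1) < rowsBelow L (Y - H L) := by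
          have := le_L₀.trans hL
          have hA : lastK L = A + 8 * L + 7 := rfl
          unfold xlRow B A rowsBelow at *
          split_ifs <;> omega
        rw [if_neg, if_neg] <;> (rintro ⟨-, -, e⟩; omega)
  | true =>
    have hX2 := hfx hfx'
    obtain ⟨hq, hx, f1, -, f3⟩ := far X hX hX2
    have hcol : ∀ m, ¬ IsCol L (X - H L) m := fun m e => by
      have := e.1
      omega
    have hcut : cutX L < X - H L := by
      have h1 : M L * 8 ≤ M L ^ 2 := by
        rw [sq]; exact Nat.mul_le_mul_left _ (by omega)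
      unfold cutX
      omega
    have hbd : ¬ IsBundle L (X - H L) := fun e => hcol 1 e.1
    have h4 : ¬ IsZone L (X - H L) 4 := fun e => hcol 4 e.1
    have h6 : ¬ IsZone L (X - H L) 6 := fun e => hcol 6 e.1
    unfold child
    rw [hx]
    simp only [St.mk.injEq, Fin'.mk.injEq, true_and, and_true, hbd, h4, h6, hcol 3, false_and,
      if_false]
    funext j
    split_ifs with hc
    · refine h _ _ (fun _ => hc.2.2.2 (decide_eq_true hq) hcut) fun hfy' => ?_
      obtain ⟨-, hy, g1, -, -⟩ := far Y hY (hfy hfy')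
      have hb := lastK_bound hL
      have := hc.2.1
      rw [hy] at this
      omega
    · rfl

/-- A quad of parents determines the tiles around its children. -/
lemma expand_box {L : ℕ} (hL : L₀ ≤ L) {c c' : V → St} {P : V} (h : quadAt c P = quadAt c' P)
    {t : V} (x1 : (side L : ℤ) * P.1 - 2 ≤ t.1) (x2 : t.1 < (side L : ℤ) * P.1 + side L)
    (y1 : (side L : ℤ) * P.2 - 2 ≤ t.2) (y2 : t.2 < (side L : ℤ) * P.2 + side L) :
    expandTile L c t = expandTile L c' t := by
  have hs : (2 : ℤ) ≤ side L := by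
    have := H_pos L
    have : side L = 2 * H L := rfl
    omega
  set Q : V := (t.1 / (side L : ℤ), t.2 / (side L : ℤ)) with hQ
  have ax : ∀ (p a : ℤ), (side L : ℤ) * p - 2 ≤ a → a < (side L : ℤ) * p + side L →
      a / (side L : ℤ) = p ∨ (a / (side L : ℤ) = p - 1 ∧ side L ≤ (a % (side L : ℤ)).toNat + 2) := by
    intro p a a1 a2
    have e := Int.emod_add_mul_ediv a (side L)
    have m0 := Int.emod_nonneg a (show (side L : ℤ) ≠ 0 by omega)
    have m1 := Int.emod_lt_of_pos a (show (0 : ℤ) < side L by omega)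
    by_cases hge : (side L : ℤ) * p ≤ a
    · left
      refine (Int.ediv_eq_iff_of_pos (by omega)).2 ?_
      constructor <;> linarith
    · right
      have hq : a / (side L : ℤ) = p - 1 := by
        refine (Int.ediv_eq_iff_of_pos (by omega)).2 ?_
        constructor <;> linarith
      refine ⟨hq, ?_⟩
      rw [hq, mul_sub, mul_one] at e
      omega
  have m0 := Int.emod_nonneg t.1 (show (side L : ℤ) ≠ 0 by omega)
  have m1 := Int.emod_lt_of_pos t.1 (show (0 : ℤ) < side L by omega)
  have n0 := Int.emod_nonneg t.2 (show (side L : ℤ) ≠ 0 by omega)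
  have n1 := Int.emod_lt_of_pos t.2 (show (0 : ℤ) < side L by omega)
  have hax := ax P.1 t.1 x1 x2
  have hay := ax P.2 t.2 y1 y2
  simp only [expandTile, childAt]
  refine child_far hL _ (by omega) (by omega) (decide (t.1 / (side L : ℤ) ≠ P.1))
    (decide (t.2 / (side L : ℤ) ≠ P.2)) ?_ ?_ fun k j hjx hjy => ?_
  · intro e; simp only [decide_eq_true_iff] at e
    exact (hax.resolve_left e).2
  · intro e; simp only [decide_eq_true_iff] at e
    exact (hay.resolve_left e).2
  show enc (L + 1) (c (Q - dir j)) k = enc (L + 1) (c' (Q - dir j)) k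
  have key : ∃ i : Fin 4, Q - dir j = P - dir i := by
    simp only [decide_eq_true_iff] at hjx hjy
    refine ⟨if Q.1 - (dir j).1 = P.1 then (if Q.2 - (dir j).2 = P.2 then 0 else 2)
      else (if Q.2 - (dir j).2 = P.2 then 1 else 3), ?_⟩
    rcases hax with a | ⟨a, -⟩ <;> rcases hay with b | ⟨b, -⟩
    · fin_cases j <;> ext <;> simp [dir, hQ, a, b]
    · rcases hjy (by omega) with rfl | rfl <;> ext <;> simp [dir, hQ, a, b]
    · rcases hjx (by omega) with rfl | rfl <;> ext <;> simp [dir, hQ, a, b]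
    · rcases hjx (by omega) with rfl | rfl <;> rcases hjy (by omega) with h' | h' <;>
        first | exact absurd h' (by decide) | (ext <;> simp [dir, hQ, a, b])
  obtain ⟨i, hi0⟩ := key
  rw [hi0]
  exact congrArg (fun q => enc (L + 1) q k) (congrFun h i)

/-- The hierarchy of tile states is primitive. -/
theorem primitive (hD : DesubStatement) : hier.Primitive := by
  intro k y hy
  obtain ⟨z, o, ho, hz, rfl⟩ := Tile.desub hD k y hy
  obtain ⟨hq, ht⟩ := valid_upper hz
  set L := L₀ + k
  set c := upper z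
  have hL : L₀ ≤ L := Nat.le_add_right _ _
  set n : ℤ := (side L : ℤ)
  have hn : 2 ≤ n := by
    show (2 : ℤ) ≤ (side L : ℤ)
    exact_mod_cast hier.two_le k
  obtain ⟨o1, o1', o2, o2'⟩ := ho
  set P : V := (if n ≤ o.1 + 2 then 1 else 0, if n ≤ o.2 + 2 then 1 else 0) with hP
  have hreal : Real (L + 1) (quadAt c P) := ⟨by omega, c, ht, P, rfl⟩
  obtain ⟨d, hd⟩ := occ_real hD hreal
  refine ⟨d + 2, fun s => ?_⟩
  set cs : V → St := fun Q => s.1 (placeOf Q)
  have hcs : quadAt cs 0 = s.1 := funext fun j => by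
    fin_cases j <;> simp [quadAt, cs, placeOf, dir]
  set c₂ : V → St := fun t => expandTile (L + 1 + d) cs (t + (1, 1))
  obtain ⟨u, hu, hS⟩ := find_gen d (L + 1) _ _ (hd (quadAt c₂ (1, 1))) c₂ (1, 1) rfl
  set E := tilesBelow (L + 1) (d + 1) cs with hE
  have hE' : quadAt E u = quadAt c P := by rw [hE, tilesBelow_top]; exact hS
  set Qd : ℤ := (span (L + 1) d : ℤ)
  have hQd : 0 < Qd := Int.natCast_pos.2 (span_pos d (L + 1))
  have hu1 := congrArg Prod.fst hu
  have hu2 := congrArg Prod.snd hu
  simp only [vdiv] at hu1 hu2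
  rw [Int.ediv_eq_iff_of_pos hQd] at hu1 hu2
  refine ⟨o + n • (u - P), fun q q1 q1' q2 q2' => ?_⟩
  have hside : (2 : ℤ) ≤ (side (L + 1 + d) : ℤ) := by
    have := side_pos' (L + 1 + d)
    have : side (L + 1 + d) = 2 * Tile.H (L + 1 + d) := rfl
    omega
  have hQ : ((hier.above k).Q (d + 2) : ℤ) = n * ((side (L + 1 + d) : ℤ) * Qd) := by
    rw [span_eq, show span (L₀ + k) (d + 2) = side L * span (L + 1) (d + 1) from rfl, span_top]
    push_cast
    rfl
  have bound : ∀ a p w r : ℤ, 0 ≤ a → a < n → p = (if n ≤ a + 2 then 1 else 0) →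
      Qd * 1 ≤ w → w < Qd * 1 + Qd → 0 ≤ r → r ≤ 1 →
      0 ≤ a + n * (w - p) + r ∧ a + n * (w - p) + r < n * ((side (L + 1 + d) : ℤ) * Qd) ∧
        n * p - 2 ≤ a + r ∧ a + r + 1 < n * p + n := by
    intro a p w r a0 a1 hp w0 w1 r0 r1
    have h1 : n * 1 ≤ n * w := mul_le_mul_of_nonneg_left (by omega) (by omega)
    have h2 : n * (w + 1) ≤ n * ((side (L + 1 + d) : ℤ) * Qd) :=
      mul_le_mul_of_nonneg_left (by nlinarith) (by omega)
    rw [mul_sub]
    split_ifs at hp with hc <;> subst hp <;> simp only [mul_one, mul_zero] at * <;>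
      rw [mul_add, mul_one] at h2 <;> omega
  obtain ⟨a1, a2, a3, a4⟩ := bound o.1 P.1 u.1 q.1 o1 o1' (by simp [hP]) (by linarith [hu1.1])
    (by linarith [hu1.2]) q1 q1'
  obtain ⟨b1, b2, b3, b4⟩ := bound o.2 P.2 u.2 q.2 o2 o2' (by simp [hP]) (by linarith [hu2.1])
    (by linarith [hu2.2]) q2 q2'
  have hr : InRange ((hier.above k).Q (d + 2)) (o + n • (u - P) + q) := by
    simp only [InRange, hQ, Prod.fst_add, Prod.snd_add, Prod.smul_fst, Prod.smul_snd,
      Prod.fst_sub, Prod.snd_sub, smul_eq_mul]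
    exact ⟨a1, a2, b1, b2⟩
  refine ⟨hr, Subtype.ext ?_⟩
  rw [deep_tiles k (d + 2) s cs hcs _ hr]
  show quadAt (fun t => expandTile L E (t + (1, 1))) _ = (hier.expand k z o q).1
  rw [expand_tile k z c o q (hq _)]
  funext j
  simp only [quadAt]
  set t : V := q + o + (1, 1) - dir j with ht'
  rw [show o + n • (u - P) + q - dir j + (1, 1) = t + n • (u - P) by simp only [ht']; abel,
    expandTile_add]
  have hd1 : 0 ≤ (dir j).1 ∧ (dir j).1 ≤ 1 ∧ 0 ≤ (dir j).2 ∧ (dir j).2 ≤ 1 := by
    fin_cases j <;> simp [dir]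
  refine (expand_box hL (P := P) ?_ ?_ ?_ ?_ ?_).trans rfl
  · funext i
    have := congrFun hE' i
    simp only [quadAt] at this ⊢
    rw [← this]
    congr 1
    abel
  all_goals
    simp only [ht', Prod.fst_sub, Prod.fst_add, Prod.snd_sub, Prod.snd_add]
    simp only [show n = (side L : ℤ) from rfl] at a3 a4 b3 b4
    omega

end Vale.Agent.P196.Tile.Minimal
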