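import Vale.Agent.P196.Tile.Minimal.Gen

/-!
P196, module D, minimality: moving the wire row or the bundle column shown by a window to a
constant row of the parent.
-/

namespace Vale.Agent.P196.Tile.Minimal

open ChildRules

variable {L X Y : ℕ} {τ : ℕ → Bool} {b b' : ℕ → Quad}

/-- Which horizontal component is shown at the tile `j`. -/
def MaskH (L X : ℕ) (j c : Fin 4) : Prop :=
  (xAt L X j = 0 → decide (H L ≤ pick L X (dx j)) = false → (c = 1 ∨ c = 3)) ∧
    (decide (H L ≤ pick L X (dx j)) = true → cutX L < xAt L X j → (c = 0 ∨ c = 2))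

/-- Which vertical component is shown at the tile `j`. -/
def MaskV (L Y : ℕ) (j c : Fin 4) : Prop :=
  (yAt L Y j = 0 → decide (H L ≤ pick L Y (dy j)) = false → (c = 2 ∨ c = 3)) ∧
    (decide (H L ≤ pick L Y (dy j)) = true → halfY L < yAt L Y j → (c = 0 ∨ c = 1))

instance (L X : ℕ) (j c : Fin 4) : Decidable (MaskH L X j c) := by unfold MaskH; infer_instance

instance (L Y : ℕ) (j c : Fin 4) : Decidable (MaskV L Y j c) := by unfold MaskV; infer_instance

/-- The parent slot shown by the horizontal component `c`. -/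
def slotH (X : ℕ) (c : Fin 4) : Fin 4 := if X = 0 then ![0, 0, 2, 2] c else c

/-- The parent slot shown by the vertical component `c`. -/
def slotV (Y : ℕ) (c : Fin 4) : Fin 4 := if Y = 0 then ![0, 1, 0, 1] c else c

lemma pick_zero (hL : L₀ ≤ L) :
    cutX L < pick L 0 true % H L ∧ halfY L < pick L 0 true % H L ∧ H L ≤ pick L 0 true ∧
      pick L 0 false = 0 := by
  have hM := eight_lt_M hL
  have hs : side L = 2 * H L := rfl
  have hH := H_pos L
  obtain ⟨-, -, h7, -⟩ := band_col (L := L) (m := 7) (by norm_num) (by omega) (M_pos L)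
  obtain ⟨-, -, -, h1, h2⟩ := wire_at hL (k := 0) (Nat.zero_le _)
  have e : pick L 0 true = H L + (H L - 1) := by
    show pred' L 0 = _
    rw [pred'_zero]; omega
  rw [e, Nat.add_mod_left, Nat.mod_eq_of_lt (by omega)]
  refine ⟨?_, ?_, by omega, rfl⟩
  · unfold cutX
    rw [Nat.mul_comm]
    omega
  · have hhalf : halfY L = M L ^ 2 * (M L / 2) + 2 * M L := by unfold halfY; ring
    have h3 : M L ^ 2 * (M L / 2 + 3) ≤ M L ^ 2 * M L := Nat.mul_le_mul_left _ (by omega)
    rw [← H_split, mul_add] at h3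
    have := M_le_sq L
    have := M_pos L
    omega

lemma wire_ne_zero {i : Fin 4} (hw : IsWire L (yAt L Y i)) : yAt L Y i ≠ 0 := fun h => by
  have := M_le_of_wire hw
  have := M_pos L
  omega

lemma wire_top (hL : L₀ ≤ L) {y : ℕ} (hy : y < H L) (hw : IsWire L y) : y + 1 < H L := by
  by_contra h
  exact (rows_zero hL).2.1 ((show H L - 1 = y by omega) ▸ hw)

lemma Y_ne_zero (hL : L₀ ≤ L) (hY : Y < side L) {i : Fin 4} (hw : IsWire L (yAt L Y i)) :
    Y ≠ 0 :=
  (pick_mem hY (b := dy i) (x := yAt L Y i) rfl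
    (Nat.one_le_iff_ne_zero.2 (wire_ne_zero hw)) (wire_top hL (yAt_lt L Y i) hw)).1

lemma X_ne_zero (hL : L₀ ≤ L) (hX : X < side L) {i : Fin 4} (hb : IsBundle L (xAt L X i)) :
    X ≠ 0 := by
  obtain ⟨h1, h2, -, -⟩ := col_bounds hL hb.1 le_rfl (by norm_num)
  exact (pick_mem hX (b := dx i) (x := xAt L X i) rfl h1 h2).1

lemma h_value (hL : L₀ ≤ L) (hY : Y < side L) (j c : Fin 4) :
    (window L τ b X Y j).fin.h c =
      if IsLive L (yAt L Y j) ∧ MaskH L X j c then b (hi L (yAt L Y j)) (slotH X c) else false := by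
  simp only [window_apply, child_h]
  by_cases h : IsLive L (yAt L Y j) ∧ MaskH L X j c
  swap
  · rw [if_neg h, if_neg]
    exact fun e => h ⟨⟨e.1, e.2.1⟩, e.2.2.1, e.2.2.2⟩
  rw [if_pos h]
  refine (if_pos ⟨h.1.1, h.1.2, h.2.1, h.2.2⟩).trans ?_
  have hY0 := Y_ne_zero hL hY h.1.1
  show seen b X Y j (hi L (yAt L Y j)) c = _
  by_cases hX0 : X = 0
  · subst hX0
    obtain ⟨hcut, -, hH, hz⟩ := pick_zero hL
    cases hd : dx j
    · have := h.2.1 (by simp [xAt, hd, hz]) (by simp [hd, hz, (H_pos L).ne'])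
      rcases this with rfl | rfl <;> simp [seen, guestBits, slotH, hY0, hd]
    · have := h.2.2 (by simp [hd, hH]) (by simpa [xAt, hd] using hcut)
      rcases this with rfl | rfl <;> simp [seen, guestBits, slotH, hY0, hd]
  · rw [seen_self hX0 hY0, slotH, if_neg hX0]

lemma vb_value (hL : L₀ ≤ L) (hX : X < side L) (j c : Fin 4) :
    (window L τ b X Y j).fin.vb c =
      if IsBundle L (xAt L X j) ∧ lo L (xAt L X j) / 2 ≤ lastK L ∧ MaskV L Y j c
      then b (lo L (xAt L X j) / 2) (slotV Y c) else false := by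
  simp only [window_apply, child_vb]
  by_cases h : IsBundle L (xAt L X j) ∧ lo L (xAt L X j) / 2 ≤ lastK L ∧ MaskV L Y j c
  swap
  · rw [if_neg h, if_neg]
    exact fun e => h ⟨e.1, e.2.1, e.2.2.1, e.2.2.2⟩
  rw [if_pos h]
  refine (if_pos ⟨h.1, h.2.1, h.2.2.1, h.2.2.2⟩).trans ?_
  have hX0 := X_ne_zero hL hX h.1
  show seen b X Y j (lo L (xAt L X j) / 2) c = _
  by_cases hY0 : Y = 0
  · subst hY0
    obtain ⟨-, hcut, hH, hz⟩ := pick_zero hL
    cases hd : dy j
    · have := h.2.2.1 (by simp [yAt, hd, hz]) (by simp [hd, hz, (H_pos L).ne'])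
      rcases this with rfl | rfl <;> simp [seen, guestBits, slotV, hX0, hd]
    · have := h.2.2.2 (by simp [hd, hH]) (by simpa [yAt, hd] using hcut)
      rcases this with rfl | rfl <;> simp [seen, guestBits, slotV, hX0, hd]
  · rw [seen_self hX0 hY0, slotV, if_neg hY0]

/-! ### Moving the wire row -/

/-- The wire row of the window moved to the row `k`. -/
def moveY (L Y : ℕ) (i : Fin 4) (k : ℕ) : ℕ := shift Y (yAt L Y i) (M L ^ 2 * k + M L)

lemma moveY_spec (hL : L₀ ≤ L) (hY : Y < side L) {i : Fin 4} (hi0 : IsLive L (yAt L Y i))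
    {k : ℕ} (hk : k ≤ lastK L) :
    moveY L Y i k < side L ∧ moveY L Y i k ≠ 0 ∧ ∀ j,
      (IsLive L (yAt L (moveY L Y i k) j) ↔ IsLive L (yAt L Y j)) ∧
      hi L (yAt L (moveY L Y i k) j) = k ∧ hi L (yAt L Y j) = hi L (yAt L Y i) ∧
      (MaskV L (moveY L Y i k) j = MaskV L Y j) := by
  set y := yAt L Y i with hy
  obtain ⟨hw', hk', h1', htop, hhalf⟩ := wire_at hL hk
  obtain ⟨hwy, hky, h1, htop0, -⟩ := wire_at hL hi0.2
  have hey : M L ^ 2 * hi L y + M L = y := by
    have := coord_eq L y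
    rw [hi0.1.1, hi0.1.2, mul_one, add_zero] at this
    exact this.symm
  rw [hey] at h1 htop0
  set y' := M L ^ 2 * k + M L
  obtain ⟨hlt, hne, hyi, hall⟩ := shift_spec hY (b := dy i) (x := y) rfl h1 (by omega) h1'
    (by omega : y' + 1 < H L)
  refine ⟨hlt, hne, fun j => ?_⟩
  obtain ⟨e, hq⟩ := hall (dy j)
  change yAt L (moveY L Y i k) j + y = yAt L Y j + y' at e
  change (H L ≤ pick L (moveY L Y i k) (dy j) ↔ _) at hq
  have n1 : yAt L Y j + (if dy j then 1 else 0) = y + (if dy i then 1 else 0) :=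
    near hY (x := y) rfl h1 (by omega) (dy j)
  have hij : (if dy j then 1 else 0) ≤ 1 ∧ (if dy i then 1 else 0) ≤ 1 := by
    constructor <;> split_ifs <;> omega
  obtain ⟨hh, hge, -, -⟩ := wire_near hL hi0.1 (y' := yAt L Y j) (by omega)
  obtain ⟨hh', hge', -, -⟩ := wire_near hL hw' (y' := yAt L (moveY L Y i k) j) (by omega)
  have hiff : IsWire L (yAt L (moveY L Y i k) j) ↔ IsWire L (yAt L Y j) := by
    constructor <;> intro h
    · have he : yAt L (moveY L Y i k) j = y' := by
        have hyi' : yAt L (moveY L Y i k) i = y' := hyi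
        have := yAt_unique hL hlt (i := i) (j := j) (hyi'.symm ▸ wire_even hL hw') (wire_even hL h)
        exact this.symm.trans hyi' 
      rw [show yAt L Y j = y by omega]
      exact hi0.1
    · rw [show yAt L (moveY L Y i k) j = y' by
        have := yAt_unique hL hY (wire_even hL hi0.1) (wire_even hL h)
        omega]
      exact hw'
  refine ⟨?_, by omega, hh, ?_⟩
  · unfold IsLive
    rw [hiff, hh', hh, hk']
    simp [hk, hi0.2]
  · funext c
    unfold MaskV
    rw [show decide (H L ≤ pick L (moveY L Y i k) (dy j)) =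
      decide (H L ≤ pick L Y (dy j)) from decide_eq_decide.2 hq]
    have a1 : ¬ halfY L < yAt L Y j := by omega
    have a2 : ¬ halfY L < yAt L (moveY L Y i k) j := by omega
    have a3 : yAt L Y j ≠ 0 := by omega
    have a4 : yAt L (moveY L Y i k) j ≠ 0 := by omega
    simp only [a1, a2, a3, a4, false_implies, implies_true]

/-- A horizontal component after moving the wire row. -/
lemma moveY_h (hL : L₀ ≤ L) (hY : Y < side L) {i : Fin 4} (hi0 : IsLive L (yAt L Y i))
    {k : ℕ} (hk : k ≤ lastK L) (c : Fin 4)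
    (h : b' k (slotH X c) = b (hi L (yAt L Y i)) (slotH X c)) :
    quadBits L (window L τ b' X (moveY L Y i k)) (c.val + 1) =
      quadBits L (window L τ b X Y) (c.val + 1) := by
  obtain ⟨hlt, -, hall⟩ := moveY_spec hL hY hi0 hk
  funext j
  rw [quadBits_h, quadBits_h]
  obtain ⟨a1, a2, a3, -⟩ := hall j
  show (window L τ b' X (moveY L Y i k) j).fin.h c = (window L τ b X Y j).fin.h c
  rw [h_value hL hlt, h_value hL hY]
  simp only [a1, a2, a3, h]

/-- A vertical component after moving the wire row. -/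
lemma moveY_vb (hL : L₀ ≤ L) (hX : X < side L) (hY : Y < side L) {i : Fin 4}
    (hi0 : IsLive L (yAt L Y i)) {k : ℕ} (hk : k ≤ lastK L) (c : Fin 4) :
    quadBits L (window L τ b X (moveY L Y i k)) (c.val + 5) =
      quadBits L (window L τ b X Y) (c.val + 5) := by
  obtain ⟨-, hne, hall⟩ := moveY_spec hL hY hi0 hk
  funext j
  rw [quadBits_vb, quadBits_vb]
  obtain ⟨-, -, -, a4⟩ := hall j
  show (window L τ b X (moveY L Y i k) j).fin.vb c = (window L τ b X Y j).fin.vb c
  rw [vb_value hL hX, vb_value hL hX]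
  simp only [a4, slotV, Y_ne_zero hL hY hi0.1, hne, if_false]

/-- The table value after moving the wire row among the compared rows. -/
lemma moveY_v (hL : L₀ ≤ L) (hY : Y < side L) {i : Fin 4} (hi0 : IsLive L (yAt L Y i))
    {k : ℕ} (hk : k ≤ lastK L) (hlow : hi L (yAt L Y i) < A - 1) (hk' : k < A - 1) :
    quadBits L (window L τ b' X (moveY L Y i k)) 0 = quadBits L (window L τ b X Y) 0 := by
  obtain ⟨-, -, hall⟩ := moveY_spec hL hY hi0 hk
  funext j
  obtain ⟨-, a2, a3, -⟩ := hall j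
  show (window L τ b' X (moveY L Y i k) j).fin.v = (window L τ b X Y j).fin.v
  simp only [window_apply, child_v]
  change (if (_ ∧ A - 1 ≤ hi L (yAt L (moveY L Y i k) j)) ∨ _ then _ else _) =
    (if (_ ∧ A - 1 ≤ hi L (yAt L Y j)) ∨ _ then _ else _)
  simp only [a2, a3]
  simp only [show ¬ A - 1 ≤ k by omega, show ¬ A - 1 ≤ hi L (yAt L Y i) by omega, and_false]

/-! ### Moving the bundle column -/

/-- The bundle column of the window moved to that of the row `k`. -/
def moveX (L X : ℕ) (i : Fin 4) (k : ℕ) : ℕ := shift X (xAt L X i) (M L + 2 * k)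

lemma moveX_spec (hL : L₀ ≤ L) (hX : X < side L) {i : Fin 4} (hb : IsBundle L (xAt L X i))
    {k : ℕ} (hk : k ≤ lastK L) :
    moveX L X i k < side L ∧ moveX L X i k ≠ 0 ∧ ∀ j,
      (IsBundle L (xAt L (moveX L X i k) j) ↔ IsBundle L (xAt L X j)) ∧
      (IsBundle L (xAt L X j) → lo L (xAt L (moveX L X i k) j) = 2 * k ∧
        xAt L X j = xAt L X i) ∧
      (∀ m, 4 ≤ m → ¬ IsZone L (xAt L (moveX L X i k) j) m ∧ ¬ IsZone L (xAt L X j) m) ∧
      (MaskH L (moveX L X i k) j = MaskH L X j) := by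
  have hM := eight_lt_M hL
  have hbd := lastK_bound hL
  set x := xAt L X i with hx
  obtain ⟨hc', hlo', h2', h3'⟩ := band_col (L := L) (m := 1) (by norm_num) (by omega)
    (show 2 * k < M L by omega)
  rw [mul_one] at hc' hlo' h2' h3'
  obtain ⟨h1, h2, h3, h4⟩ := col_bounds hL hb.1 le_rfl (by norm_num)
  rw [mul_one] at h4
  set x' := M L + 2 * k
  have hb' : IsBundle L x' := ⟨hc', by rw [hlo']; omega⟩
  obtain ⟨hlt, hne, hxi, hall⟩ := shift_spec hX (b := dx i) (x := x) rfl h1 h2
    (by omega : 1 ≤ x') h2'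
  have hxi' : xAt L (moveX L X i k) i = x' := hxi
  replace hlt : moveX L X i k < side L := hlt
  refine ⟨hlt, hne, fun j => ?_⟩
  obtain ⟨e, hq⟩ := hall (dx j)
  change xAt L (moveX L X i k) j + x = xAt L X j + x' at e
  change (H L ≤ pick L (moveX L X i k) (dx j) ↔ _) at hq
  have n1 : xAt L X j + (if dx j then 1 else 0) = x + (if dx i then 1 else 0) :=
    near hX rfl h1 h2 (dx j)
  have hij : (if dx j then 1 else 0) ≤ 1 ∧ (if dx i then 1 else 0) ≤ 1 := by
    constructor <;> split_ifs <;> omega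
  have same : IsBundle L (xAt L X j) → xAt L X j = x := fun h =>
    xAt_unique hL hX (bundle_even hL h) (bundle_even hL hb)
  have same' : IsBundle L (xAt L (moveX L X i k) j) → xAt L (moveX L X i k) j = x' := fun h =>
    (xAt_unique hL hlt (bundle_even hL h) (by rw [hxi']; exact bundle_even hL hb')).trans hxi'
  refine ⟨⟨fun h => ?_, fun h => ?_⟩, fun h => ?_, fun m hm => ⟨fun h => ?_, fun h => ?_⟩, ?_⟩
  · rw [show xAt L X j = x by have := same' h; omega]
    exact hb
  · rw [show xAt L (moveX L X i k) j = x' by have := same h; omega]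
    exact hb'
  · have := same h
    exact ⟨by rw [show xAt L (moveX L X i k) j = x' by omega]; exact hlo', this⟩
  · have := (special_unique hL hlt (j := i) ⟨h.1, by have := h.2.1; omega⟩
      (m' := 1) (by rw [hxi']; exact ⟨hc', hb'.2⟩)).2
    omega
  · have := (special_unique hL hX (j := i) ⟨h.1, by have := h.2.1; omega⟩
      (m' := 1) ⟨hb.1, hb.2⟩).2
    omega
  · funext c
    unfold MaskH
    rw [show decide (H L ≤ pick L (moveX L X i k) (dx j)) =
      decide (H L ≤ pick L X (dx j)) from decide_eq_decide.2 hq]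
    have a1 : ¬ cutX L < xAt L X j := by unfold cutX; omega
    have a2 : ¬ cutX L < xAt L (moveX L X i k) j := by unfold cutX; omega
    have a3 : xAt L X j ≠ 0 := by omega
    have a4 : xAt L (moveX L X i k) j ≠ 0 := by omega
    simp only [a1, a2, a3, a4, false_implies, implies_true]

/-- A vertical component after moving the bundle column. -/
lemma moveX_vb (hL : L₀ ≤ L) (hX : X < side L) {i : Fin 4} (hb : IsBundle L (xAt L X i))
    (hk0 : lo L (xAt L X i) / 2 ≤ lastK L) {k : ℕ} (hk : k ≤ lastK L) (c : Fin 4)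
    (h : b' k (slotV Y c) = b (lo L (xAt L X i) / 2) (slotV Y c)) :
    quadBits L (window L τ b' (moveX L X i k) Y) (c.val + 5) =
      quadBits L (window L τ b X Y) (c.val + 5) := by
  obtain ⟨hlt, -, hall⟩ := moveX_spec hL hX hb hk
  funext j
  rw [quadBits_vb, quadBits_vb]
  obtain ⟨a1, a2, -, -⟩ := hall j
  show (window L τ b' (moveX L X i k) Y j).fin.vb c = (window L τ b X Y j).fin.vb c
  rw [vb_value hL hlt, vb_value hL hX]
  by_cases hj : IsBundle L (xAt L X j)
  · obtain ⟨e1, e2⟩ := a2 hj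
    simp only [a1, hj, e1, e2, Nat.mul_div_cancel_left _ (show 0 < 2 by norm_num), hk, hk0,
      true_and, h]
  · simp only [a1, hj, false_and, if_false]

/-- A horizontal component after moving the bundle column. -/
lemma moveX_h (hL : L₀ ≤ L) (hX : X < side L) (hY : Y < side L) {i : Fin 4}
    (hb : IsBundle L (xAt L X i)) {k : ℕ} (hk : k ≤ lastK L) (c : Fin 4) :
    quadBits L (window L τ b (moveX L X i k) Y) (c.val + 1) =
      quadBits L (window L τ b X Y) (c.val + 1) := by
  obtain ⟨-, hne, hall⟩ := moveX_spec hL hX hb hk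
  funext j
  rw [quadBits_h, quadBits_h]
  obtain ⟨-, -, -, a4⟩ := hall j
  show (window L τ b (moveX L X i k) Y j).fin.h c = (window L τ b X Y j).fin.h c
  rw [h_value hL hY, h_value hL hY]
  simp only [a4, slotH, X_ne_zero hL hX hb, hne, if_false]

/-- The table value after moving the bundle column. -/
lemma moveX_v (hL : L₀ ≤ L) (hX : X < side L) {i : Fin 4} (hb : IsBundle L (xAt L X i))
    {k : ℕ} (hk : k ≤ lastK L) :
    quadBits L (window L τ b' (moveX L X i k) Y) 0 = quadBits L (window L τ b X Y) 0 := by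
  obtain ⟨-, -, hall⟩ := moveX_spec hL hX hb hk
  funext j
  obtain ⟨-, -, a3, -⟩ := hall j
  show (window L τ b' (moveX L X i k) Y j).fin.v = (window L τ b X Y j).fin.v
  simp only [window_apply, child_v]
  rw [if_neg, if_neg]
  · rintro (h | h)
    · exact (a3 4 le_rfl).2 h.1
    · exact (a3 6 (by norm_num)).2 h
  · rintro (h | h)
    · exact (a3 4 le_rfl).1 h.1
    · exact (a3 6 (by norm_num)).1 h

/-! ### Constant rows -/

/-- A row showing only zeros, or one showing only ones. -/
def bitRow (t : Bool) : ℕ := if t then A - 2 else 9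

lemma bitRow_lt (hL : L₀ ≤ L) (t : Bool) : bitRow t ≤ lastK L ∧ bitRow t < A - 1 := by
  have := le_L₀.trans hL
  unfold bitRow lastK A
  split_ifs <;> omega

lemma ones_row {L : ℕ} (q : Quad4 St) {k : ℕ} (hk : k = A - 2 ∨ k = A - 1) :
    quadBits L q k = fun _ => true := by
  funext j
  have hA : A = 1024 := rfl
  have hF : AF = 900 := rfl
  show enc L (q j) k = true
  rw [enc, if_pos (by omega), finBits]
  rcases hk with rfl | rfl <;> norm_num [A, AF]

/-- Below every quad there is one whose two chosen rows are constant. -/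
lemma rep_const (hL : L₀ ≤ L) : ∃ G, (∀ t, ∀ j, quadBits L G (bitRow t) j = t) ∧
    Rep L G fun k => k = 0 ∨ k = 9 ∨ k = 10 ∨ k = A - 2 ∨ k = A - 1 := by
  obtain ⟨X, Y, hX, hY, -, hz⟩ := exists_blank hL
  refine ⟨window L table (fun _ _ => false) X Y, fun t j => ?_,
    (rep_none (L + 1) (window L table (fun _ _ => false) X Y)).step fun S' _ =>
      ⟨X, Y, hX, hY, fun k hk => ?_⟩⟩
  · cases t
    · exact congrFun (hz table _ 9 (Or.inr (Or.inl rfl))) j
    · exact congrFun (ones_row _ (Or.inl rfl)) j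
  · rcases hk with h | h | h | h | h
    · rw [hz table _ k (Or.inl h), hz table _ k (Or.inl h)]
    · rw [hz table _ k (Or.inr (Or.inl h)), hz table _ k (Or.inr (Or.inl h))]
    · rw [hz table _ k (Or.inr (Or.inr h)), hz table _ k (Or.inr (Or.inr h))]
    · rw [ones_row _ (Or.inl h), ones_row _ (Or.inl h)]
    · rw [ones_row _ (Or.inr h), ones_row _ (Or.inr h)]

lemma bitRow_mem (t : Bool) :
    bitRow t = 0 ∨ bitRow t = 9 ∨ bitRow t = 10 ∨ bitRow t = A - 2 ∨ bitRow t = A - 1 := by
  cases t <;> simp [bitRow]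

variable {T : Quad4 St}

/-- One horizontal component and the table values, over an arbitrary quad. -/
lemma rep_moveY (hL : L₀ ≤ L) (hX : X < side L) (hY : Y < side L) {i : Fin 4}
    (hi0 : IsLive L (yAt L Y i)) (hlow : hi L (yAt L Y i) < A - 1) (c : Fin 4) :
    Rep L (window L table (quadBits (L + 1) T) X Y) fun k => k = 0 ∨ k = c.val + 1 := by
  obtain ⟨G, hG, hrep⟩ := rep_const (show L₀ ≤ L + 1 by omega)
  set t := quadBits (L + 1) T (hi L (yAt L Y i)) (slotH X c)
  obtain ⟨h1, h2⟩ := bitRow_lt hL t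
  refine hrep.step fun S' ha => ?_
  refine ⟨X, moveY L Y i (bitRow t), hX, (moveY_spec hL hY hi0 h1).1, fun k hk => ?_⟩
  rcases hk with rfl | rfl
  · exact moveY_v hL hY hi0 h1 hlow h2
  · exact moveY_h hL hY hi0 h1 c (by rw [ha _ (bitRow_mem t)]; exact hG t _)

/-- One vertical component and the table values, over an arbitrary quad. -/
lemma rep_moveX (hL : L₀ ≤ L) (hX : X < side L) (hY : Y < side L) {i : Fin 4}
    (hb : IsBundle L (xAt L X i)) (hk0 : lo L (xAt L X i) / 2 ≤ lastK L) (c : Fin 4) :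
    Rep L (window L table (quadBits (L + 1) T) X Y) fun k => k = 0 ∨ k = c.val + 5 := by
  obtain ⟨G, hG, hrep⟩ := rep_const (show L₀ ≤ L + 1 by omega)
  set t := quadBits (L + 1) T (lo L (xAt L X i) / 2) (slotV Y c)
  obtain ⟨h1, -⟩ := bitRow_lt hL t
  refine hrep.step fun S' ha => ?_
  refine ⟨moveX L X i (bitRow t), Y, (moveX_spec hL hX hb h1).1, hY, fun k hk => ?_⟩
  rcases hk with rfl | rfl
  · exact moveX_v hL hX hb h1
  · exact moveX_vb hL hX hb hk0 h1 c (by rw [ha _ (bitRow_mem t)]; exact hG t _)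

/-- A horizontal and a vertical component, over an arbitrary quad. -/
lemma rep_moveXY (hL : L₀ ≤ L) (hX : X < side L) (hY : Y < side L) {i i' : Fin 4}
    (hi0 : IsLive L (yAt L Y i)) (hb : IsBundle L (xAt L X i'))
    (hk0 : lo L (xAt L X i') / 2 ≤ lastK L) (c c' : Fin 4) :
    Rep L (window L table (quadBits (L + 1) T) X Y) fun k => k = c.val + 1 ∨ k = c'.val + 5 := by
  obtain ⟨G, hG, hrep⟩ := rep_const (show L₀ ≤ L + 1 by omega)
  set t := quadBits (L + 1) T (hi L (yAt L Y i)) (slotH X c)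
  set t' := quadBits (L + 1) T (lo L (xAt L X i') / 2) (slotV Y c')
  obtain ⟨h1, -⟩ := bitRow_lt hL t
  obtain ⟨h1', -⟩ := bitRow_lt hL t'
  obtain ⟨hY', hY0, -⟩ := moveY_spec hL hY hi0 h1
  refine hrep.step fun S' ha =>
    ⟨moveX L X i' (bitRow t'), moveY L Y i (bitRow t), (moveX_spec hL hX hb h1').1, hY',
      fun k hk => ?_⟩
  rcases hk with rfl | rfl
  · rw [moveX_h hL hX hY' hb h1' c]
    exact moveY_h hL hY hi0 h1 c (by rw [ha _ (bitRow_mem t)]; exact hG t _)
  · rw [← moveY_vb (τ := table) (b := quadBits (L + 1) T) hL hX hY hi0 h1 c']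
    refine moveX_vb hL hX hb hk0 h1' c' ?_
    rw [ha _ (bitRow_mem t'), hG]
    simp only [t', slotV, Y_ne_zero hL hY hi0.1, hY0, if_false]

end Vale.Agent.P196.Tile.Minimal
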