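import Vale.Agent.P196.Tile.Minimal.Rows

/-!
P196, module D, minimality: every real quad occurs below every quad of some higher level.
-/

namespace Vale.Agent.P196.Tile.Minimal

open ChildRules

variable {L : ℕ} {w R : Quad4 St}

/-- The selected rows of a parent of a window without comparisons. -/
lemma rep_visible (hD : DesubStatement) (hR : Real (L + 1) R) {X Y : ℕ} (hL : L₀ ≤ L)
    (hX : X < side L) (hY : Y < side L) {k₁ k₂ : ℕ}
    (h1 : k₁ ≠ 0 → ∃ i, IsLive L (yAt L Y i) ∧ hi L (yAt L Y i) = k₁)
    (h2 : k₂ ≠ 0 → ∃ i, IsBundle L (xAt L X i)) :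
    Rep (L + 1) R fun m => m = k₁ ∨ m = k₂ ∨ RestVis L X Y m := by
  have hA : A = 1024 := rfl
  have noRest : k₂ ≠ 0 → ∀ m, ¬ RestVis L X Y m := fun h m => by
    obtain ⟨i, hi0⟩ := h2 h
    exact no_restVis hL hX hi0 m
  have low : Soft R k₁ → ∀ m, RestVis L X Y m → m = 0 := fun hs m hm => by
    obtain ⟨i, hw, hk⟩ := h1 fun h => not_soft_zero R (h ▸ hs)
    have := restVis_le hL hY hw.1 hm
    have := soft_le hs
    rcases restVis_rows hm with h | h
    · exact h
    · unfold AF at h; omega
  have ne0 : ∀ {k}, Soft R k → k ≠ 0 := fun hs h => not_soft_zero R (h ▸ hs)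
  by_cases hs1 : Soft R k₁
  · by_cases hs2 : Soft R k₂
    · rcases hs1 with ⟨a, b⟩ | ⟨rfl, he⟩
      · rcases hs2 with ⟨a', b'⟩ | ⟨rfl, he⟩
        · refine (rep_pair hD hR a b a' b').mono fun m hm => ?_
          exact hm.imp_right fun h => h.resolve_right (noRest (by omega) m)
        · refine (rep_sig hD hR he).mono fun m hm => ?_
          rcases hm with h | h | h
          · omega
          · omega
          · exact absurd h (noRest (by norm_num) m)
      · refine (rep_sig hD hR he).mono fun m hm => ?_
        have := soft_le hs2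
        rcases hm with h | h | h
        · omega
        · omega
        · exact absurd h (noRest (ne0 hs2) m)
    · rcases hs1 with ⟨a, b⟩ | ⟨rfl, he⟩
      · refine (rep_field hD hR a b).mono fun m hm => ?_
        rcases hm with h | h | h
        · exact Or.inl h
        · exact Or.inr (h ▸ hs2)
        · exact Or.inr (low (Or.inl ⟨a, b⟩) m h ▸ not_soft_zero R)
      · rcases Nat.lt_or_ge k₂ A with hk | hk
        · refine (rep_sig hD hR he).mono fun m hm => ?_
          rcases hm with h | h | h
          · omega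
          · omega
          · have := low (Or.inr ⟨rfl, he⟩) m h; omega
        · refine (rep_num hD hR he hk).mono fun m hm => ?_
          exact hm.imp_right fun h => h.resolve_right (noRest (by omega) m)
  · by_cases hs2 : Soft R k₂
    · have hno := noRest (ne0 hs2)
      rcases hs2 with ⟨a, b⟩ | ⟨rfl, he⟩
      · refine (rep_field hD hR a b).mono fun m hm => ?_
        rcases hm with h | h | h
        · exact Or.inr (h ▸ hs1)
        · exact Or.inl h
        · exact absurd h (hno m)
      · rcases Nat.lt_or_ge k₁ A with hk | hk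
        · refine (rep_sig hD hR he).mono fun m hm => ?_
          rcases hm with h | h | h
          · omega
          · omega
          · exact absurd h (hno m)
        · refine (rep_num hD hR he hk).mono fun m hm => ?_
          rcases hm with h | h | h
          · exact Or.inr h
          · exact Or.inl h
          · exact absurd h (hno m)
    · refine (rep_nonSoft hD hR).mono fun m hm => ?_
      rcases hm with h | h | h
      · exact h ▸ hs1
      · exact h ▸ hs2
      · exact not_soft_rest (restVis_rows h)

/-- A real quad without comparisons occurs below every quad. -/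
lemma occ_ne (hD : DesubStatement) (hw : Real L w) (hne : ¬ EqWin w) : Occ L w := by
  classical
  have hL := hw.le
  obtain ⟨R, X, Y, hR, hX, hY, rfl⟩ := hw.parent hD
  set k₁ := if h : ∃ i, IsLive L (yAt L Y i) then hi L (yAt L Y h.choose) else 0 with hk₁
  set k₂ := if h : ∃ i, IsBundle L (xAt L X i) ∧ lo L (xAt L X i) / 2 ≤ lastK L
    then lo L (xAt L X h.choose) / 2 else 0 with hk₂
  have h1 : k₁ ≠ 0 → ∃ i, IsLive L (yAt L Y i) ∧ hi L (yAt L Y i) = k₁ := by
    intro h
    by_cases he : ∃ i, IsLive L (yAt L Y i)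
    · exact ⟨he.choose, he.choose_spec, by rw [hk₁, dif_pos he]⟩
    · exact absurd (by rw [hk₁, dif_neg he]) h
  have h2 : k₂ ≠ 0 → ∃ i, IsBundle L (xAt L X i) := by
    intro h
    by_cases he : ∃ i, IsBundle L (xAt L X i) ∧ lo L (xAt L X i) / 2 ≤ lastK L
    · exact ⟨he.choose, he.choose_spec.1⟩
    · exact absurd (by rw [hk₂, dif_neg he]) h
  refine (rep_visible hD hR hL hX hY h1 h2).occ fun S' ha =>
    ⟨X, Y, hX, hY, window_congr table (fun j hj => ?_) (fun j hj hj' => ?_)
      (fun m hm => ha m (Or.inr (Or.inr hm))) fun j hz hM hr k hk => ?_⟩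
  · refine ha _ (Or.inl ?_)
    have he : ∃ i, IsLive L (yAt L Y i) := ⟨j, hj⟩
    rw [hk₁, dif_pos he, live_unique hL hY he.choose_spec hj]
  · refine ha _ (Or.inr (Or.inl ?_))
    have he : ∃ i, IsBundle L (xAt L X i) ∧ lo L (xAt L X i) / 2 ≤ lastK L := ⟨j, hj, hj'⟩
    rw [hk₂, dif_pos he, bundle_unique hL hX he.choose_spec.1 hj]
  · refine absurd ⟨j, ?_⟩ hne
    rw [window_apply, child_eqf]
    refine fun h => ?_
    exact Option.some_ne_none _ ((if_pos ⟨hz, hM, hr⟩).symm.trans h)

/-- Every real quad occurs below every quad. -/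
theorem occ_real (hD : DesubStatement) (hw : Real L w) : Occ L w := by
  by_cases he : EqWin w
  swap
  · exact occ_ne hD hw he
  have hL := hw.le
  obtain ⟨R, X, Y, hR, hX, hY, rfl⟩ := hw.parent hD
  obtain ⟨i, d⟩ := eqData hL hX hY he
  by_cases heR : EqWin R
  swap
  · exact (occ_ne hD hR heR).child ⟨X, Y, hX, hY, rfl⟩
  have hA : A = 1024 := rfl
  refine (rep_sig hD hR heR).occ fun S' ha =>
    ⟨X, Y, hX, hY, window_congr table (fun j hj => ?_) (fun j hj _ => ?_) (fun m hm => ?_)
      fun j _ _ hr k hk => ha k (by omega)⟩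
  · refine ha _ ?_
    have := (d.rows j).2.2
    have := d.hl
    have := d.hu
    omega
  · exact absurd (special_unique hL hX ⟨hj.1, hj.2⟩ (j := i)
      ⟨d.col.1, by have := d.col.2.1; omega⟩).2 (by norm_num)
  · obtain ⟨j, hj⟩ := hm
    obtain ⟨h, he'⟩ := scanned_even hL hj
    rcases h with h | h <;> exact absurd (special_unique hL hX ⟨h, he'⟩ (j := i)
      ⟨d.col.1, by have := d.col.2.1; omega⟩).2 (by norm_num)

end Vale.Agent.P196.Tile.Minimal
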