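import Vale.Agent.P196.Tile.Minimal.Eq

/-!
P196, module D, minimality: selected rows of a real quad below an arbitrary quad.
-/

namespace Vale.Agent.P196.Tile.Minimal

open ChildRules

variable {L : ℕ} {R : Quad4 St}

lemma not_soft_zero (q : Quad4 St) : ¬ Soft q 0 := by
  rintro (h | h) <;> omega

lemma soft_le {q : Quad4 St} {k : ℕ} (h : Soft q k) : k ≤ 10 := by
  rcases h with h | h <;> omega

lemma not_soft_rest {q : Quad4 St} {k : ℕ} (h : k = 0 ∨ AF ≤ k) : ¬ Soft q k := fun hs => by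
  have := soft_le hs
  rcases h with rfl | h
  · exact not_soft_zero q hs
  · unfold AF at h; omega

/-- A number of the range `1, …, 8` is a horizontal or a vertical component. -/
lemma component {k : ℕ} (h1 : 1 ≤ k) (h8 : k ≤ 8) :
    ∃ c : Fin 4, k = c.val + 1 ∨ k = c.val + 5 := by
  by_cases h : k ≤ 4
  · exact ⟨⟨k - 1, by omega⟩, Or.inl (show k = k - 1 + 1 by omega)⟩
  · exact ⟨⟨k - 5, by omega⟩, Or.inr (show k = k - 5 + 5 by omega)⟩

lemma live_unique {Y : ℕ} (hL : L₀ ≤ L) (hY : Y < side L) {i j : Fin 4}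
    (hi : IsLive L (yAt L Y i)) (hj : IsLive L (yAt L Y j)) : yAt L Y j = yAt L Y i :=
  yAt_wire_unique hL hY hj.1 hi.1

lemma bundle_unique {X : ℕ} (hL : L₀ ≤ L) (hX : X < side L) {i j : Fin 4}
    (hi : IsBundle L (xAt L X i)) (hj : IsBundle L (xAt L X j)) : xAt L X j = xAt L X i :=
  xAt_unique hL hX (bundle_even hL hj) (bundle_even hL hi)

/-- Any row, together with the table values, and all rows which are not soft if it is not. -/
lemma rep_row (hD : DesubStatement) (hR : Real L R) (r : ℕ) :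
    Rep L R fun k => k = 0 ∨ k = r ∨ (¬ Soft R r ∧ ¬ Soft R k) := by
  by_cases hs : Soft R r
  swap
  · refine (rep_nonSoft hD hR).mono fun k hk => ?_
    rcases hk with rfl | rfl | hk
    · exact not_soft_zero R
    · exact hs
    · exact hk.2
  have hL := hR.le
  obtain ⟨S, X, Y, hS, hX, hY, rfl⟩ := hR.parent hD
  rcases hs with ⟨h1, h8⟩ | ⟨rfl, he⟩
  swap
  · obtain ⟨i, d⟩ := eqData hL hX hY he
    have hfin : Rep L (window L table (quadBits (L + 1) S) X Y) fun k => k = 0 ∨ k = 10 := by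
      rcases Nat.lt_or_ge (hi L (Y % H L)) (A - 1) with h | h
      · exact rep_eq_low d h
      · exact (rep_eq_top d (le_antisymm d.hu h) hS.valid).mono fun k hk => by
          unfold A
          omega
    refine hfin.mono fun k hk => ?_
    rcases hk with h | h | h
    · exact Or.inl h
    · exact Or.inr h
    · exact absurd (Or.inr ⟨rfl, he⟩) h.1
  obtain ⟨c, hc⟩ := component h1 h8
  have hsoft : Soft (window L table (quadBits (L + 1) S) X Y) r := Or.inl ⟨h1, h8⟩
  have close : ∀ {P : ℕ → Prop}, (∀ k, (k = 0 ∨ k = r) → P k) →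
      Rep L (window L table (quadBits (L + 1) S) X Y) P →
      Rep L (window L table (quadBits (L + 1) S) X Y) fun k =>
        k = 0 ∨ k = r ∨ (¬ Soft (window L table (quadBits (L + 1) S) X Y) r ∧
          ¬ Soft (window L table (quadBits (L + 1) S) X Y) k) := fun hP h =>
    h.mono fun k hk => by
      rcases hk with h' | h' | h'
      · exact hP k (Or.inl h')
      · exact hP k (Or.inr h')
      · exact absurd hsoft h'.1
  rcases hc with rfl | rfl
  · by_cases hex : ∃ i, IsLive L (yAt L Y i)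
    · obtain ⟨i, hlive⟩ := hex
      by_cases hf : Soft S (hi L (yAt L Y i))
      · exact close (fun k hk => hk)
          (rep_moveY hL hX hY hlive (by have := soft_le hf; unfold A; omega) c)
      · refine close (P := fun k => k = 0 ∨ k = c.val + 1) (fun k hk => hk)
          ((rep_nonSoft hD hS).step fun S' ha => ⟨X, Y, hX, hY, fun k hk => ?_⟩)
        rcases hk with rfl | rfl
        · exact window_pos table (Or.inl rfl)
        · refine window_h table (fun j hj => ?_) c
          rw [live_unique hL hY hlive hj]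
          exact ha _ hf
    · refine close (P := fun k => k = 0 ∨ k = c.val + 1) (fun k hk => hk)
        ((rep_none (L + 1) S).step fun S' _ => ⟨X, Y, hX, hY, fun k hk => ?_⟩)
      rcases hk with rfl | rfl
      · exact window_pos table (Or.inl rfl)
      · exact window_h table (fun j hj => absurd ⟨j, hj⟩ hex) c
  · by_cases hex : ∃ i, IsBundle L (xAt L X i) ∧ lo L (xAt L X i) / 2 ≤ lastK L
    · obtain ⟨i, hb, hk0⟩ := hex
      exact close (fun k hk => hk) (rep_moveX hL hX hY hb hk0 c)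
    · refine close (P := fun k => k = 0 ∨ k = c.val + 5) (fun k hk => hk)
        ((rep_none (L + 1) S).step fun S' _ => ⟨X, Y, hX, hY, fun k hk => ?_⟩)
      rcases hk with rfl | rfl
      · exact window_pos table (Or.inl rfl)
      · exact window_vb table (fun j h h' => absurd ⟨j, h, h'⟩ hex) c

/-- One component and every row which is not soft. -/
lemma rep_field (hD : DesubStatement) (hR : Real L R) {k : ℕ} (h1 : 1 ≤ k) (h8 : k ≤ 8) :
    Rep L R fun m => m = k ∨ ¬ Soft R m := by
  have hL := hR.le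
  obtain ⟨S, X, Y, hS, hX, hY, rfl⟩ := hR.parent hD
  obtain ⟨c, hc⟩ := component h1 h8
  rcases hc with rfl | rfl
  · by_cases hex : ∃ i, IsLive L (yAt L Y i)
    · obtain ⟨i, hlive⟩ := hex
      refine (rep_row hD hS (hi L (yAt L Y i))).step fun S' ha => ⟨X, Y, hX, hY, fun m hm => ?_⟩
      rcases hm with rfl | hm
      · refine window_h table (fun j hj => ?_) c
        rw [live_unique hL hY hlive hj]
        exact ha _ (Or.inr (Or.inl rfl))
      · refine agree_nonSoft table (fun m hm' => (ha m ?_).symm) m hm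
        have hle := restVis_le hL hY hlive.1 hm'
        rcases restVis_rows hm' with h | h
        · exact Or.inl h
        · exact Or.inr (Or.inr ⟨not_soft_rest (Or.inr (h.trans hle)), not_soft_rest (Or.inr h)⟩)
    · refine (rep_pos hD hS).step fun S' ha => ⟨X, Y, hX, hY, fun m hm => ?_⟩
      rcases hm with rfl | hm
      · exact window_h table (fun j hj => absurd ⟨j, hj⟩ hex) c
      · refine agree_nonSoft table (fun m hm' => (ha m ?_).symm) m hm
        rcases restVis_rows hm' with h | h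
        · exact Or.inl h
        · exact Or.inr (Or.inr h)
  · by_cases hex : ∃ i, IsBundle L (xAt L X i) ∧ lo L (xAt L X i) / 2 ≤ lastK L
    · obtain ⟨i, hb, hk0⟩ := hex
      refine (rep_row hD hS (lo L (xAt L X i) / 2)).step fun S' ha =>
        ⟨X, Y, hX, hY, fun m hm => ?_⟩
      rcases hm with rfl | hm
      · refine window_vb table (fun j hj _ => ?_) c
        rw [bundle_unique hL hX hb hj]
        exact ha _ (Or.inr (Or.inl rfl))
      · exact agree_nonSoft table (fun m hm' => absurd hm' (no_restVis hL hX hb m)) m hm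
    · refine (rep_pos hD hS).step fun S' ha => ⟨X, Y, hX, hY, fun m hm => ?_⟩
      rcases hm with rfl | hm
      · exact window_vb table (fun j h h' => absurd ⟨j, h, h'⟩ hex) c
      · refine agree_nonSoft table (fun m hm' => (ha m ?_).symm) m hm
        rcases restVis_rows hm' with h | h
        · exact Or.inl h
        · exact Or.inr (Or.inr h)

/-- Two components. -/
lemma rep_pair (hD : DesubStatement) (hR : Real L R) {k k' : ℕ} (h1 : 1 ≤ k) (h8 : k ≤ 8)
    (h1' : 1 ≤ k') (h8' : k' ≤ 8) : Rep L R fun m => m = k ∨ m = k' := by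
  have hL := hR.le
  obtain ⟨S, X, Y, hS, hX, hY, rfl⟩ := hR.parent hD
  have viaRow : ∀ r, Rep L (window L table (quadBits (L + 1) S) X Y) fun m =>
      ∃ c : Fin 4,
        (m = c.val + 1 ∧ ∀ j, IsLive L (yAt L Y j) → hi L (yAt L Y j) = r) ∨
        (m = c.val + 5 ∧ ∀ j, IsBundle L (xAt L X j) → lo L (xAt L X j) / 2 ≤ lastK L →
          lo L (xAt L X j) / 2 = r) := fun r => by
    refine (rep_row hD hS r).step fun S' ha => ⟨X, Y, hX, hY, fun m hm => ?_⟩
    rcases hm with ⟨c, ⟨rfl, h⟩ | ⟨rfl, h⟩⟩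
    · exact window_h table (fun j hj => by rw [h j hj]; exact ha r (Or.inr (Or.inl rfl))) c
    · exact window_vb table
        (fun j hj hj' => by rw [h j hj hj']; exact ha r (Or.inr (Or.inl rfl))) c
  obtain ⟨c, hc⟩ := component h1 h8
  obtain ⟨c', hc'⟩ := component h1' h8'
  by_cases hwy : ∃ i, IsLive L (yAt L Y i)
  swap
  · by_cases hbx : ∃ i, IsBundle L (xAt L X i) ∧ lo L (xAt L X i) / 2 ≤ lastK L
    · obtain ⟨i, hb, -⟩ := hbx
      refine (viaRow (lo L (xAt L X i) / 2)).mono fun m hm => ?_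
      have hh1 : ∀ j, IsLive L (yAt L Y j) → hi L (yAt L Y j) = lo L (xAt L X i) / 2 :=
        fun j hj => absurd ⟨j, hj⟩ hwy
      have hh2 : ∀ j, IsBundle L (xAt L X j) → lo L (xAt L X j) / 2 ≤ lastK L →
          lo L (xAt L X j) / 2 = lo L (xAt L X i) / 2 := fun j hj _ => by
        rw [bundle_unique hL hX hb hj]
      rcases hm with rfl | rfl
      · exact ⟨c, hc.imp (⟨·, hh1⟩) (⟨·, hh2⟩)⟩
      · exact ⟨c', hc'.imp (⟨·, hh1⟩) (⟨·, hh2⟩)⟩
    · refine (viaRow 0).mono fun m hm => ?_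
      have hh1 : ∀ j, IsLive L (yAt L Y j) → hi L (yAt L Y j) = 0 :=
        fun j hj => absurd ⟨j, hj⟩ hwy
      have hh2 : ∀ j, IsBundle L (xAt L X j) → lo L (xAt L X j) / 2 ≤ lastK L →
          lo L (xAt L X j) / 2 = 0 := fun j hj hj' => absurd ⟨j, hj, hj'⟩ hbx
      rcases hm with rfl | rfl
      · exact ⟨c, hc.imp (⟨·, hh1⟩) (⟨·, hh2⟩)⟩
      · exact ⟨c', hc'.imp (⟨·, hh1⟩) (⟨·, hh2⟩)⟩
  obtain ⟨i, hlive⟩ := hwy
  have hh1 : ∀ j, IsLive L (yAt L Y j) → hi L (yAt L Y j) = hi L (yAt L Y i) := fun j hj => by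
    rw [live_unique hL hY hlive hj]
  by_cases hbx : ∃ i, IsBundle L (xAt L X i) ∧ lo L (xAt L X i) / 2 ≤ lastK L
  swap
  · refine (viaRow (hi L (yAt L Y i))).mono fun m hm => ?_
    have hh2 : ∀ j, IsBundle L (xAt L X j) → lo L (xAt L X j) / 2 ≤ lastK L →
        lo L (xAt L X j) / 2 = hi L (yAt L Y i) := fun j hj hj' => absurd ⟨j, hj, hj'⟩ hbx
    rcases hm with rfl | rfl
    · exact ⟨c, hc.imp (⟨·, hh1⟩) (⟨·, hh2⟩)⟩
    · exact ⟨c', hc'.imp (⟨·, hh1⟩) (⟨·, hh2⟩)⟩
  obtain ⟨i', hb, hk0⟩ := hbx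
  have hh2 : ∀ j, IsBundle L (xAt L X j) → lo L (xAt L X j) / 2 ≤ lastK L →
      lo L (xAt L X j) / 2 = lo L (xAt L X i') / 2 := fun j hj _ => by
    rw [bundle_unique hL hX hb hj]
  rcases hc with rfl | rfl <;> rcases hc' with rfl | rfl
  · refine (viaRow (hi L (yAt L Y i))).mono fun m hm => ?_
    rcases hm with rfl | rfl
    · exact ⟨c, Or.inl ⟨rfl, hh1⟩⟩
    · exact ⟨c', Or.inl ⟨rfl, hh1⟩⟩
  · exact rep_moveXY hL hX hY hlive hb hk0 c c'
  · exact (rep_moveXY hL hX hY hlive hb hk0 c' c).mono fun m hm => hm.symm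
  · refine (viaRow (lo L (xAt L X i') / 2)).mono fun m hm => ?_
    rcases hm with rfl | rfl
    · exact ⟨c, Or.inr ⟨rfl, hh2⟩⟩
    · exact ⟨c', Or.inr ⟨rfl, hh2⟩⟩

/-- The finite data of a comparing quad. -/
lemma rep_sig (hD : DesubStatement) (hR : Real L R) (he : EqWin R) :
    Rep L R fun k => k < A := by
  have hL := hR.le
  obtain ⟨S, X, Y, hS, hX, hY, rfl⟩ := hR.parent hD
  obtain ⟨i, d⟩ := eqData hL hX hY he
  rcases Nat.lt_or_ge (hi L (Y % H L)) (A - 1) with h | h
  · exact rep_eq_sig_low d h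
      ((rep_row hD hS (hi L (Y % H L - 1))).mono fun k hk => Or.inr (Or.inl hk))
  · exact rep_eq_top d (le_antisymm d.hu h) hS.valid

/-- The comparison and one bit of a number. -/
lemma rep_num (hD : DesubStatement) (hR : Real L R) (he : EqWin R) {k : ℕ} (hk : A ≤ k) :
    Rep L R fun m => m = 10 ∨ m = k := by
  have hL := hR.le
  obtain ⟨S, X, Y, hS, hX, hY, rfl⟩ := hR.parent hD
  obtain ⟨i, d⟩ := eqData hL hX hY he
  exact rep_eq_num d hk
    ((rep_row hD hS (((k - A) / 8 - 2) / 4)).mono fun m hm => Or.inr (Or.inl hm))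

end Vale.Agent.P196.Tile.Minimal
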